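import Vale.Agent.P195.Trunc

/-!
P195: the base case of finite projective dimensions, and the class of rings built from it.
-/

namespace Vale.Agent.P195

open CategoryTheory Abelian

universe u

variable {A : Type u} [Ring A]

/-- Over a left Noetherian ring, a finitely generated module of finite projective dimension with
no higher extensions into the ring is projective. -/
theorem projective_of_finite_pd [IsNoetherianRing A] (d : ℕ) :
    ∀ M : ModuleCat.{u} A, Module.Finite A M →
      (∀ (i : ℕ) (Y : ModuleCat.{u} A), d + 2 ≤ i + 1 → Subsingleton (Ext M Y (i + 1))) →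
      (∀ i : ℕ, 1 ≤ i → Subsingleton (Ext M (ModuleCat.of A A) i)) →
      Module.Projective A M := by
  induction d with
  | zero =>
    intro M hfin hd hA
    obtain ⟨k, g, hg⟩ := Module.Finite.exists_fin' A M
    have hS := LinearMap.shortExact_shortComplexKer hg
    have : Module.Finite A (LinearMap.ker g) := Module.Finite.of_fg (IsNoetherian.noetherian _)
    have : Projective g.shortComplexKer.X₂ :=
      (IsProjective.iff_projective (R := A) (Fin k → A)).1 inferInstance
    have : Module.Projective A (LinearMap.ker g) := by
      refine (IsProjective.iff_projective _).2 ⟨fun {Y Z} φ q => ?_⟩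
      intro hq
      let q' : ShortComplex (ModuleCat.{u} A) := q.hom.shortComplexKer
      have hq' := LinearMap.shortExact_shortComplexKer ((ModuleCat.epi_iff_surjective q).1 hq)
      have h1 : Subsingleton (Ext g.shortComplexKer.X₁ q'.X₁ 1) :=
        ext_pred_of_ext hS 0 (hd 1 _ le_rfl)
      obtain ⟨y, hy⟩ := Ext.covariant_sequence_exact₃ g.shortComplexKer.X₁ hq' (Ext.mk₀ φ)
        (n₁ := 1) rfl (Subsingleton.elim (α := Ext g.shortComplexKer.X₁ q'.X₁ 1) _ _)
      obtain ⟨ψ, rfl⟩ := (Ext.mk₀_bijective _ _).2 y
      refine ⟨ψ, (Ext.mk₀_bijective _ _).1 ?_⟩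
      rw [← Ext.mk₀_comp_mk₀]
      exact hy
    obtain ⟨l, f, e, -, -, hfe⟩ := Module.Finite.exists_comp_eq_id_of_projective A (LinearMap.ker g)
    choose h hh using fun j : Fin l => extend_of_ext_one hS (hA 1 le_rfl)
      (ModuleCat.ofHom ((LinearMap.proj j).comp e) :
        g.shortComplexKer.X₁ ⟶ ModuleCat.of A A)
    let r : (Fin k → A) →ₗ[A] LinearMap.ker g := f.comp (LinearMap.pi fun j => (h j).hom)
    have hr : ∀ y : LinearMap.ker g, r y.1 = y := by
      intro y
      have he : (LinearMap.pi fun j => (h j).hom) y.1 = e y := funext fun j =>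
        congrArg (fun t : g.shortComplexKer.X₁ ⟶ ModuleCat.of A A => t.hom y) (hh j)
      show f ((LinearMap.pi fun j => (h j).hom) y.1) = y
      rw [he]
      exact LinearMap.congr_fun hfe y
    let w : (Fin k → A) →ₗ[A] (Fin k → A) := LinearMap.id - (LinearMap.ker g).subtype.comp r
    have hw : LinearMap.ker g ≤ LinearMap.ker w := fun y hy => by
      show y - ((r y : LinearMap.ker g) : Fin k → A) = 0
      rw [hr ⟨y, hy⟩, sub_self]
    let s : M →ₗ[A] (Fin k → A) :=
      ((LinearMap.ker g).liftQ w hw).comp (g.quotKerEquivOfSurjective hg).symm.toLinearMap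
    refine Module.Projective.of_split s g (LinearMap.ext fun m => ?_)
    obtain ⟨y, rfl⟩ := hg m
    have : (g.quotKerEquivOfSurjective hg).symm (g y) = Submodule.Quotient.mk y := by
      rw [LinearEquiv.symm_apply_eq]
      rfl
    show g (((LinearMap.ker g).liftQ w hw) ((g.quotKerEquivOfSurjective hg).symm (g y))) = g y
    rw [this, Submodule.liftQ_apply]
    show g (y - ((r y : LinearMap.ker g) : Fin k → A)) = g y
    rw [map_sub, LinearMap.mem_ker.1 (r y).2, sub_zero]
  | succ d ih =>
    intro M hfin hd hA
    refine ih M hfin (fun i Y hi => ?_) hA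
    rcases Nat.lt_or_ge i (d + 2) with hlt | hge
    · obtain ⟨k, g, hg⟩ := Module.Finite.exists_fin' A M
      have hS := LinearMap.shortExact_shortComplexKer hg
      have : Module.Finite A (LinearMap.ker g) := Module.Finite.of_fg (IsNoetherian.noetherian _)
      have : Projective g.shortComplexKer.X₂ :=
        (IsProjective.iff_projective (R := A) (Fin k → A)).1 inferInstance
      have hK : Module.Projective A (LinearMap.ker g) :=
        ih (g.shortComplexKer.X₁) inferInstance
          (fun j Z hj => ext_pred_of_ext hS j (hd (j + 1) Z (by omega)))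
          (fun j hj => by
            obtain ⟨j, rfl⟩ : ∃ j', j = j' + 1 := ⟨j - 1, by omega⟩
            exact ext_pred_of_ext hS j (hA (j + 1 + 1) (by omega)))
      have : Projective g.shortComplexKer.X₁ := (IsProjective.iff_projective _).1 hK
      obtain ⟨j, rfl⟩ : ∃ j, i = j + 1 := ⟨i - 1, by omega⟩
      exact ext_succ_of_ext hS j (Ext.subsingleton_of_projective _ _ j)
    · exact hd i Y (by omega)

/-- A left Noetherian ring all whose finitely generated modules have finite projective
dimension has the Auslander-Reiten property. -/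
theorem ar_of_finite_pd [IsNoetherianRing A]
    (h : ∀ M : ModuleCat.{u} A, Module.Finite A M → ∃ d, HasProjectiveDimensionLT M d) :
    ARProperty A := by
  intro M hfin _ hA
  obtain ⟨d, hd⟩ := h M hfin
  exact projective_of_finite_pd d M hfin
    (fun i Y hi => HasProjectiveDimensionLT.subsingleton M d (i + 1) (by omega) Y) hA

/-- The rings obtained from left Noetherian rings with finite projective dimensions by
finitely many steps `A ↦ A[x]/(x^n)` and `A ↦ A[P]` (`P` a finite `p`-group, `p = 0` in `A`). -/
inductive Built : (R : Type u) → Ring R → Prop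
  | base (R : Type u) (iR : Ring R) (hN : @IsNoetherianRing R iR.toSemiring)
      (h : ∀ M : ModuleCat.{u} R, Module.Finite R M → ∃ d, HasProjectiveDimensionLT M d) :
      Built R iR
  | trunc (A B : Type u) (iA : Ring A) (iB : Ring B) (ι : A →+* B) (x : B) (n : ℕ)
      (h : Trunc.IsTrunc ι x n) (hA : Built A iA) : Built B iB
  | group (A : Type u) (iA : Ring A) (p : ℕ) (hp : p.Prime) (hpA : (p : A) = 0)
      (P : Type) (iP : Group P) (hF : Finite P) (hP : IsPGroup p P) (hA : Built A iA) :
      Built (MonoidAlgebra A P) MonoidAlgebra.ring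

theorem ar_of_built (R : Type u) (iR : Ring R) (h : Built R iR) : @ARProperty R iR := by
  induction h with
  | base R iR hN h =>
    let := iR
    exact ar_of_finite_pd h
  | trunc A B iA iB ι x n h _ ih => exact Trunc.ar_trunc h ih
  | group A iA p hp hpA P iP hF hP _ ih =>
    have : Fact p.Prime := ⟨hp⟩
    exact ar_ascends hpA hP ih

end Vale.Agent.P195
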