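import Vale.Agent.P195.Shift

/-!
P195: coinduced modules over `MonoidAlgebra A P` and the descent of `Ext` vanishing.
-/

namespace Vale.Agent.P195

open CategoryTheory Abelian MonoidAlgebra

universe u

variable {A : Type u} [Ring A] {P : Type} [Group P]

/-- The group element `g` seen in the group algebra. -/
noncomputable def el (g : P) : MonoidAlgebra A P := single g 1

/-- The scalar `a` seen in the group algebra. -/
noncomputable def sc : A →+* MonoidAlgebra A P := singleOneRingHom

theorem single_eq_sc_mul_el (g : P) (a : A) : single g a = sc a * el g := by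
  simp [sc, el]

theorem el_mul (g h : P) : el g * el h = (el (g * h) : MonoidAlgebra A P) := by
  simp [el]

theorem el_one : (el 1 : MonoidAlgebra A P) = 1 := rfl

theorem el_mul_sc (g : P) (a : A) : el g * sc a = sc a * el g := by
  simp [sc, el]

/-- An additive map that commutes with group elements and scalars is linear. -/
theorem map_smul_of_el_sc {M N : Type u} [AddCommGroup M] [Module (MonoidAlgebra A P) M]
    [AddCommGroup N] [Module (MonoidAlgebra A P) N] (f : M →+ N)
    (hg : ∀ (g : P) (m : M), f (el (A := A) g • m) = el (A := A) g • f m)
    (ha : ∀ (a : A) (m : M), f (sc (P := P) a • m) = sc (P := P) a • f m)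
    (r : MonoidAlgebra A P) (m : M) : f (r • m) = r • f m := by
  induction r using MonoidAlgebra.induction_linear with
  | zero => simp
  | add x y hx hy => simp [add_smul, hx, hy]
  | single g a => rw [single_eq_sc_mul_el, mul_smul, mul_smul, ha, hg]

/-- The linear map built from an additive map commuting with group elements and scalars. -/
noncomputable def mkLinear {M N : Type u} [AddCommGroup M] [Module (MonoidAlgebra A P) M]
    [AddCommGroup N] [Module (MonoidAlgebra A P) N] (f : M →+ N)
    (hg : ∀ (g : P) (m : M), f (el (A := A) g • m) = el (A := A) g • f m)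
    (ha : ∀ (a : A) (m : M), f (sc (P := P) a • m) = sc (P := P) a • f m) :
    M →ₗ[MonoidAlgebra A P] N :=
  { toFun := f, map_add' := f.map_add, map_smul' := map_smul_of_el_sc f hg ha }

/-- Functions from the group to `X`. -/
def Co (P : Type) (X : Type u) : Type u := P → X

noncomputable instance (X : Type u) [AddCommGroup X] : AddCommGroup (Co P X) :=
  inferInstanceAs (AddCommGroup (P → X))

section

variable (X : Type u) [AddCommGroup X] [Module A X]

/-- Scalars act pointwise. -/
noncomputable def coScalar : A →+* AddMonoid.End (Co P X) :=
  Module.toAddMonoidEnd A (P → X)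

/-- The group acts by right translation of the argument. -/
noncomputable def coShift : P →* AddMonoid.End (Co P X) where
  toFun g :=
    { toFun := fun f h => f (h * g)
      map_zero' := rfl
      map_add' := fun _ _ => rfl }
  map_one' := by
    ext f
    funext h
    show f (h * 1) = f h
    rw [mul_one]
  map_mul' g k := by
    ext f
    funext h
    show f (h * (g * k)) = f (h * g * k)
    rw [mul_assoc]

theorem coScalar_comm (a : A) (g : P) :
    Commute (coScalar (A := A) (P := P) X a) (coShift X g) := rfl

/-- The coinduced action. -/
noncomputable instance coModule : Module (MonoidAlgebra A P) (Co P X) :=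
  Module.compHom _ (liftNCRingHom (coScalar (A := A) (P := P) X) (coShift X) (coScalar_comm X))

theorem co_el_smul (g : P) (f : Co P X) (h : P) :
    (el (A := A) g • f : Co P X) h = f (h * g) := by
  show ((liftNCRingHom (coScalar (A := A) (P := P) X) (coShift X) (coScalar_comm X)) (el g) :
    AddMonoid.End (Co P X)) f h = _
  rw [el, liftNCRingHom_single, map_one, one_mul]
  rfl

theorem co_sc_smul (a : A) (f : Co P X) (h : P) :
    (sc (P := P) a • f : Co P X) h = a • f h := by
  show ((liftNCRingHom (coScalar (A := A) (P := P) X) (coShift X) (coScalar_comm X)) (sc a) :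
    AddMonoid.End (Co P X)) f h = _
  rw [show sc a = single (1 : P) a from rfl, liftNCRingHom_single, map_one, mul_one]
  rfl

end

/-- Restriction of scalars to `A`. -/
noncomputable abbrev res (M : ModuleCat.{u} (MonoidAlgebra A P)) : ModuleCat.{u} A :=
  (ModuleCat.restrictScalars (sc (A := A) (P := P))).obj M

/-- The coinduced module. -/
noncomputable abbrev co (P : Type) [Group P] (X : ModuleCat.{u} A) :
    ModuleCat.{u} (MonoidAlgebra A P) :=
  ModuleCat.of _ (Co P X)

/-- From maps out of a restriction to maps into a coinduced module. -/
noncomputable def toCo {M : ModuleCat.{u} (MonoidAlgebra A P)} {X : ModuleCat.{u} A}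
    (φ : res M ⟶ X) : M ⟶ co P X :=
  ModuleCat.ofHom (mkLinear
    { toFun := fun m h => φ.hom ((el (A := A) h • m : M) : res M)
      map_zero' := by
        funext h
        show φ.hom (el (A := A) h • (0 : M)) = 0
        rw [smul_zero]
        exact φ.hom.map_zero
      map_add' := fun m n => by
        funext h
        show φ.hom (el (A := A) h • (m + n)) =
          φ.hom (el (A := A) h • m) + φ.hom (el (A := A) h • n)
        rw [smul_add]
        exact φ.hom.map_add _ _ }
    (fun g m => by
      funext h
      show φ.hom (el (A := A) h • el (A := A) g • m) = _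
      rw [co_el_smul, ← mul_smul, el_mul]
      rfl)
    (fun a m => by
      funext h
      show φ.hom (el (A := A) h • sc (P := P) a • m) = _
      rw [co_sc_smul, ← mul_smul, el_mul_sc, mul_smul]
      exact φ.hom.map_smul a _))

/-- From maps into a coinduced module to maps out of a restriction. -/
noncomputable def fromCo {M : ModuleCat.{u} (MonoidAlgebra A P)} {X : ModuleCat.{u} A}
    (ψ : M ⟶ co P X) : res M ⟶ X :=
  ModuleCat.ofHom (X := res M)
    { toFun := fun m => (ψ.hom (m : M) : Co P X) 1
      map_add' := fun m n => congrFun (ψ.hom.map_add m n) 1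
      map_smul' := fun a m => by
        show (ψ.hom (sc (P := P) a • (m : M)) : Co P X) 1 = _
        refine (congrFun (ψ.hom.map_smul (sc (P := P) a) (m : M)) 1).trans ?_
        exact co_sc_smul _ _ _ _ }

theorem fromCo_toCo {M : ModuleCat.{u} (MonoidAlgebra A P)} {X : ModuleCat.{u} A}
    (φ : res M ⟶ X) : fromCo (toCo φ) = φ := by
  ext m
  show φ.hom (el (A := A) (1 : P) • (m : M)) = φ.hom m
  rw [el_one, one_smul]

theorem fromCo_comp {M N : ModuleCat.{u} (MonoidAlgebra A P)} {X : ModuleCat.{u} A}
    (f : M ⟶ N) (ψ : N ⟶ co P X) :
    fromCo (f ≫ ψ) = (ModuleCat.restrictScalars (sc (A := A) (P := P))).map f ≫ fromCo ψ :=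
  rfl

theorem projective_res (F : ModuleCat.{u} (MonoidAlgebra A P)) [Projective F] :
    Projective (res F) where
  factors {E X} f e := by
    intro he
    let q : co P E ⟶ co P X := ModuleCat.ofHom (mkLinear
      { toFun := fun k h => e.hom (k h)
        map_zero' := funext fun _ => e.hom.map_zero
        map_add' := fun k l => funext fun _ => e.hom.map_add _ _ }
      (fun g k => funext fun h => by
        show e.hom ((el g • k : Co P E) h) = _
        rw [co_el_smul, co_el_smul]
        rfl)
      (fun a k => funext fun h => by
        show e.hom ((sc a • k : Co P E) h) = _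
        rw [co_sc_smul, co_sc_smul]
        exact e.hom.map_smul a _))
    have hq : Epi q := by
      rw [ModuleCat.epi_iff_surjective] at he ⊢
      intro k
      choose l hl using fun h => he (k h)
      exact ⟨l, funext hl⟩
    refine ⟨fromCo (Projective.factorThru (toCo f) q), ?_⟩
    conv_rhs => rw [← fromCo_toCo f]
    ext m
    exact congrFun (congrArg (fun t : F ⟶ co P X => t.hom m)
      (Projective.factorThru_comp (toCo f) q)) 1

theorem res_shortExact {S : ShortComplex (ModuleCat.{u} (MonoidAlgebra A P))} (h : S.ShortExact) :
    (S.map (ModuleCat.restrictScalars (sc (A := A) (P := P)))).ShortExact where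
  exact := by
    rw [ShortComplex.ShortExact.moduleCat_exact_iff_function_exact]
    exact (ShortComplex.ShortExact.moduleCat_exact_iff_function_exact S).1 h.exact
  mono_f := (ModuleCat.mono_iff_injective _).2 h.moduleCat_injective_f
  epi_g := (ModuleCat.epi_iff_surjective _).2 h.moduleCat_surjective_g

theorem ext_res (X : ModuleCat.{u} A) (n : ℕ) :
    ∀ M : ModuleCat.{u} (MonoidAlgebra A P), Subsingleton (Ext M (co P X) (n + 1)) →
      Subsingleton (Ext (res M) X (n + 1)) := by
  induction n with
  | zero =>
    intro M hM
    have h := M.shortExact_projectiveShortComplex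
    have hF : Projective M.projectiveShortComplex.X₂ :=
      (IsProjective.iff_projective M.projectiveShortComplex.X₂).1 inferInstance
    have := projective_res M.projectiveShortComplex.X₂
    have h' := res_shortExact h
    have : Projective (M.projectiveShortComplex.map
        (ModuleCat.restrictScalars (sc (A := A) (P := P)))).X₂ := this
    refine ext_one_of_extend h' fun φ => ?_
    obtain ⟨ψ, hψ⟩ := extend_of_ext_one h hM (toCo φ)
    exact ⟨fromCo ψ, by rw [← fromCo_toCo φ, ← hψ, fromCo_comp]; rfl⟩
  | succ n ih =>
    intro M hM
    have h := M.shortExact_projectiveShortComplex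
    have hF : Projective M.projectiveShortComplex.X₂ :=
      (IsProjective.iff_projective M.projectiveShortComplex.X₂).1 inferInstance
    have := projective_res M.projectiveShortComplex.X₂
    have h' := res_shortExact h
    have : Projective (M.projectiveShortComplex.map
        (ModuleCat.restrictScalars (sc (A := A) (P := P)))).X₂ := this
    exact ext_succ_of_ext h' n (ih _ (ext_pred_of_ext h n hM))

theorem extVanish_res {M : ModuleCat.{u} (MonoidAlgebra A P)} {X : ModuleCat.{u} A}
    (h : ExtVanish M (co P X)) : ExtVanish (res M) X := by
  intro i hi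
  obtain ⟨n, rfl⟩ : ∃ n, i = n + 1 := ⟨i - 1, by omega⟩
  exact ext_res X n M (h _ hi)

/-- The coinduced module of the base ring is the group algebra itself. -/
noncomputable def coEquiv [Fintype P] :
    Co P A ≃ₗ[MonoidAlgebra A P] MonoidAlgebra A P :=
  LinearEquiv.ofBijective
    (mkLinear
      { toFun := fun f => ∑ h : P, single h⁻¹ (f h)
        map_zero' := Finset.sum_eq_zero fun h _ => single_zero _
        map_add' := fun f k => by
          rw [← Finset.sum_add_distrib]
          exact Finset.sum_congr rfl fun h _ => (single_add _ _ _) }
      (fun g f => by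
        show ∑ h : P, single h⁻¹ ((el g • f : Co P A) h) = el g * ∑ h : P, single h⁻¹ (f h)
        rw [Finset.mul_sum, ← Equiv.sum_comp (Equiv.mulRight g) fun h => el g * single h⁻¹ (f h)]
        refine Finset.sum_congr rfl fun h _ => ?_
        rw [co_el_smul]
        simp [el])
      (fun a f => by
        show ∑ h : P, single h⁻¹ ((sc a • f : Co P A) h) = sc a * ∑ h : P, single h⁻¹ (f h)
        rw [Finset.mul_sum]
        refine Finset.sum_congr rfl fun h _ => ?_
        rw [co_sc_smul]
        simp [sc]))
    (by
      classical
      have key : ∀ (f : Co P A) (g : P),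
          (∑ h : P, single h⁻¹ (f h) : MonoidAlgebra A P).coeff g = f g⁻¹ := by
        intro f g
        simp [coeff_sum, Finsupp.single_apply, inv_eq_iff_eq_inv]
        exact Finset.sum_ite_eq' Finset.univ g⁻¹ f |>.trans (if_pos (Finset.mem_univ _))
      refine ⟨fun f k hfk => funext fun h => ?_, fun r => ⟨fun h => r.coeff h⁻¹, ?_⟩⟩
      · have := congrArg (fun r : MonoidAlgebra A P => r.coeff h⁻¹) hfk
        change (∑ h : P, single h⁻¹ (f h) : MonoidAlgebra A P).coeff h⁻¹ =
          (∑ h : P, single h⁻¹ (k h) : MonoidAlgebra A P).coeff h⁻¹ at this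
        rwa [key, key, inv_inv] at this
      · ext g
        show (∑ h : P, single h⁻¹ (r.coeff h⁻¹) : MonoidAlgebra A P).coeff g = _
        rw [key (fun h => r.coeff h⁻¹) g, inv_inv])

end Vale.Agent.P195
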