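import Vale.Agent.P195.DualInj
import Mathlib.Algebra.Module.Projective
import Mathlib.LinearAlgebra.Dual.Lemmas

/-!
P195: for a finitely generated projective module `Q` over an algebra `A`, the functionals on
`Hom_A (Q, A)` form an injective module. A cochain complex `Hom_A (Q •, A)` exact below the top
degree, whose top cohomology is dual to `V`, gives an injective coresolution of `V`.
-/

namespace Vale.Agent.P195

open CategoryTheory Abelian

universe u

variable {k A : Type u} [Field k] [Ring A] [Algebra k A]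

attribute [local instance] ModuleCat.moduleOfAlgebraModule ModuleCat.isScalarTower_of_algebra_moduleCat

/-- Right multiplication of a map into the algebra. -/
def mulHom {Q : Type u} [AddCommGroup Q] [Module A Q] (φ : Q →ₗ[A] A) (a : A) : Q →ₗ[A] A :=
  (LinearMap.toSpanSingleton A A a).comp φ

@[simp] theorem mulHom_apply {Q : Type u} [AddCommGroup Q] [Module A Q] (φ : Q →ₗ[A] A) (a : A)
    (q : Q) : mulHom φ a q = φ q * a := rfl

/-- Functionals on `Hom_A (Q, A)`. -/
structure HD (k A : Type u) [Field k] [Ring A] [Algebra k A] (Q : Type u)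
    [AddCommGroup Q] [Module A Q] : Type u where
  /-- The functional. -/
  toFun : (Q →ₗ[A] A) →ₗ[k] k

namespace HD

variable {Q : Type u} [AddCommGroup Q] [Module A Q]

@[ext] theorem ext {F G : HD k A Q} (h : ∀ φ, F.toFun φ = G.toFun φ) : F = G := by
  cases F; cases G; congr; exact LinearMap.ext h

instance : Zero (HD k A Q) := ⟨⟨0⟩⟩
instance : Add (HD k A Q) := ⟨fun F G => ⟨F.toFun + G.toFun⟩⟩
instance : Neg (HD k A Q) := ⟨fun F => ⟨-F.toFun⟩⟩

@[simp] theorem zero_toFun : (0 : HD k A Q).toFun = 0 := rfl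
@[simp] theorem add_toFun (F G : HD k A Q) : (F + G).toFun = F.toFun + G.toFun := rfl
@[simp] theorem neg_toFun (F : HD k A Q) : (-F).toFun = -F.toFun := rfl

instance : AddCommGroup (HD k A Q) where
  nsmul := nsmulRec
  zsmul := zsmulRec
  add_assoc a b c := by ext; simp [add_assoc]
  zero_add a := by ext; simp
  add_zero a := by ext; simp
  neg_add_cancel a := by ext; simp
  add_comm a b := by ext; simp [add_comm]

instance : SMul A (HD k A Q) :=
  ⟨fun a F => ⟨F.toFun ∘ₗ
    { toFun := fun φ => mulHom φ a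
      map_add' := fun φ ψ => LinearMap.ext fun q => by simp [add_mul]
      map_smul' := fun c φ => LinearMap.ext fun q => by simp }⟩⟩

@[simp] theorem smul_toFun (a : A) (F : HD k A Q) (φ : Q →ₗ[A] A) :
    (a • F).toFun φ = F.toFun (mulHom φ a) := rfl

theorem mulHom_one (φ : Q →ₗ[A] A) : mulHom φ (1 : A) = φ := LinearMap.ext fun q => by simp

instance : Module A (HD k A Q) where
  one_smul F := by ext; simp [mulHom_one]
  mul_smul a b F := by
    ext φ
    simp only [smul_toFun]
    congr 1
    exact LinearMap.ext fun q => (mul_assoc _ _ _).symm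
  smul_zero a := by ext; simp
  smul_add a F G := by ext; simp
  add_smul a b F := by
    ext φ
    simp only [smul_toFun, add_toFun, LinearMap.add_apply]
    rw [← map_add]
    congr 1
    exact LinearMap.ext fun q => mul_add _ _ _
  zero_smul F := by
    ext φ
    simp only [smul_toFun, zero_toFun, LinearMap.zero_apply]
    rw [show mulHom φ (0 : A) = 0 from LinearMap.ext fun q => mul_zero _, map_zero]

end HD

/-- The module of functionals on `Hom_A (Q, A)`. -/
abbrev homDual (k A : Type u) [Field k] [Ring A] [Algebra k A] (Q : Type u)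
    [AddCommGroup Q] [Module A Q] : ModuleCat.{u} A :=
  ModuleCat.of A (HD k A Q)

variable {Q Q' Q'' : Type u} [AddCommGroup Q] [Module A Q] [AddCommGroup Q'] [Module A Q']
  [AddCommGroup Q''] [Module A Q'']

/-- `Hom (Hom_A (Q, A), k)` is injective for a finitely generated projective `Q`. -/
theorem injective_homDual [Module.Projective A Q] [Module.Finite A Q] :
    Injective (homDual k A Q) := by
  obtain ⟨n, p, hp⟩ := Module.Finite.exists_fin' A Q
  obtain ⟨s, hs⟩ := Module.projective_lifting_property p LinearMap.id hp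
  let c : Fin n → (Q →ₗ[A] A) := fun i => (LinearMap.proj i).comp s
  let q : Fin n → Q := fun i => p (Pi.single i 1)
  have hexp : ∀ φ : Q →ₗ[A] A, φ = ∑ i, mulHom (c i) (φ (q i)) := by
    intro φ
    refine LinearMap.ext fun x => ?_
    have h := congrArg φ (LinearMap.congr_fun hs x)
    rw [LinearMap.id_apply, LinearMap.comp_apply, pi_eq_sum_univ' (s x), map_sum, map_sum] at h
    simp only [LinearMap.coe_sum, Finset.sum_apply, mulHom_apply]
    rw [← h]
    refine Finset.sum_congr rfl fun i _ => ?_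
    rw [map_smul, map_smul]
    rfl
  refine ⟨fun {X Y} g f hf => ?_⟩
  obtain ⟨r, hr⟩ := (f.hom.restrictScalars k).exists_leftInverse_of_injective
    (LinearMap.ker_eq_bot.2 ((ModuleCat.mono_iff_injective f).1 hf))
  let G : Y →ₗ[A] HD k A Q :=
    { toFun := fun y =>
        ⟨{ toFun := fun φ => ∑ i, (g.hom (r (φ (q i) • y))).toFun (c i)
           map_add' := fun φ ψ => by simp [add_smul, Finset.sum_add_distrib]
           map_smul' := fun t φ => by
            simp only [LinearMap.smul_apply, smul_assoc, map_smul, RingHom.id_apply, smul_eq_mul,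
              Finset.mul_sum]
            refine Finset.sum_congr rfl fun i _ => ?_
            rw [show t • r (φ (q i) • y) = algebraMap k A t • r (φ (q i) • y) from
              (algebraMap_smul A t _).symm, map_smul, HD.smul_toFun]
            rw [show mulHom (c i) (algebraMap k A t) = t • c i from LinearMap.ext fun x => by
              simp [← Algebra.commutes, Algebra.smul_def], map_smul, smul_eq_mul] }⟩
      map_add' := fun y z => HD.ext fun φ => by simp [smul_add, Finset.sum_add_distrib]
      map_smul' := fun a y => HD.ext fun φ => by simp [mul_smul] }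
  refine ⟨ModuleCat.ofHom G, ModuleCat.hom_ext (LinearMap.ext fun x => HD.ext fun φ => ?_)⟩
  show ∑ i, (g.hom (r (φ (q i) • f.hom x))).toFun (c i) = (g.hom x).toFun φ
  conv_rhs => rw [hexp φ, map_sum]
  refine Finset.sum_congr rfl fun i _ => ?_
  rw [← map_smul f.hom, show r (f.hom (φ (q i) • x)) = φ (q i) • x from LinearMap.congr_fun hr _,
    map_smul, HD.smul_toFun]

/-- The dual of precomposition. -/
def homDualMap (d : Q' →ₗ[A] Q) : homDual k A Q' ⟶ homDual k A Q :=
  ModuleCat.ofHom
    { toFun := fun F => ⟨F.toFun ∘ₗ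
        { toFun := fun φ => φ.comp d
          map_add' := fun φ ψ => LinearMap.add_comp d ψ φ
          map_smul' := fun c φ => LinearMap.smul_comp c φ d }⟩
      map_add' := fun _ _ => HD.ext fun _ => rfl
      map_smul' := fun _ _ => HD.ext fun _ => rfl }

@[simp] theorem homDualMap_apply (d : Q' →ₗ[A] Q) (F : homDual k A Q') (φ : Q →ₗ[A] A) :
    ((homDualMap (k := k) d).hom F).toFun φ = F.toFun (φ.comp d) := rfl

/-- Factor a functional through a map killing no more. -/
theorem exists_functional_factor {U W : Type u} [AddCommGroup U] [Module k U] [AddCommGroup W]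
    [Module k W] (T : U →ₗ[k] W) (F : U →ₗ[k] k) (h : ∀ u, T u = 0 → F u = 0) :
    ∃ G : W →ₗ[k] k, ∀ u, G (T u) = F u := by
  have : F ∈ (LinearMap.ker T).dualAnnihilator :=
    (Submodule.mem_dualAnnihilator F).2 fun u hu => h u hu
  rw [← LinearMap.range_dualMap_eq_dualAnnihilator_ker] at this
  obtain ⟨G, hG⟩ := this
  exact ⟨G, fun u => LinearMap.congr_fun hG u⟩

/-- Exactness of cochains gives exactness of the duals. -/
theorem range_homDualMap (a : Q'' →ₗ[A] Q') (b : Q' →ₗ[A] Q)
    (hz : ∀ φ : Q →ₗ[A] A, (φ.comp b).comp a = 0)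
    (hex : ∀ φ : Q' →ₗ[A] A, φ.comp a = 0 → ∃ ψ : Q →ₗ[A] A, ψ.comp b = φ) :
    LinearMap.range (homDualMap (k := k) a).hom = LinearMap.ker (homDualMap (k := k) b).hom := by
  ext F
  simp only [LinearMap.mem_range, LinearMap.mem_ker]
  constructor
  · rintro ⟨G, rfl⟩
    refine HD.ext fun φ => ?_
    rw [homDualMap_apply, homDualMap_apply, hz φ, map_zero]
    rfl
  · intro hF
    obtain ⟨G, hG⟩ := exists_functional_factor
      { toFun := fun φ => φ.comp a
        map_add' := fun φ ψ => LinearMap.add_comp a ψ φ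
        map_smul' := fun c φ => LinearMap.smul_comp c φ a }
      F.toFun fun φ hφ => by
        obtain ⟨ψ, rfl⟩ := hex φ hφ
        rw [← homDualMap_apply, hF]
        rfl
    exact ⟨⟨G⟩, HD.ext hG⟩

/-- Injectivity of cochains gives surjectivity of the dual. -/
theorem surjective_homDualMap (b : Q' →ₗ[A] Q)
    (hinj : ∀ φ : Q →ₗ[A] A, φ.comp b = 0 → φ = 0) :
    Function.Surjective (homDualMap (k := k) b).hom := by
  intro F
  obtain ⟨G, hG⟩ := exists_functional_factor
    { toFun := fun φ => φ.comp b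
      map_add' := fun φ ψ => LinearMap.add_comp b ψ φ
      map_smul' := fun c φ => LinearMap.smul_comp c φ b }
    F.toFun fun φ hφ => by rw [hinj φ hφ, map_zero]
  exact ⟨⟨G⟩, HD.ext hG⟩

/-- No extensions in degree four and above into a module with dual to the top cohomology. -/
theorem ext_eq_zero_of_cochain_exact {V : ModuleCat.{u} A} [Module.Finite k V] {Q₀ Q₁ Q₂ Q₃ : Type u}
    [AddCommGroup Q₀] [Module A Q₀] [Module.Projective A Q₀] [Module.Finite A Q₀]
    [AddCommGroup Q₁] [Module A Q₁] [Module.Projective A Q₁] [Module.Finite A Q₁]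
    [AddCommGroup Q₂] [Module A Q₂] [Module.Projective A Q₂] [Module.Finite A Q₂]
    [AddCommGroup Q₃] [Module A Q₃] [Module.Projective A Q₃] [Module.Finite A Q₃]
    (d₁ : Q₁ →ₗ[A] Q₀) (d₂ : Q₂ →ₗ[A] Q₁) (d₃ : Q₃ →ₗ[A] Q₂)
    (hd₁ : d₁.comp d₂ = 0) (hd₂ : d₂.comp d₃ = 0)
    (deg₀ : ∀ φ : Q₀ →ₗ[A] A, φ.comp d₁ = 0 → φ = 0)
    (deg₁ : ∀ φ : Q₁ →ₗ[A] A, φ.comp d₂ = 0 → ∃ ψ : Q₀ →ₗ[A] A, ψ.comp d₁ = φ)
    (deg₂ : ∀ φ : Q₂ →ₗ[A] A, φ.comp d₃ = 0 → ∃ ψ : Q₁ →ₗ[A] A, ψ.comp d₂ = φ)
    (T : (Q₃ →ₗ[A] A) →ₗ[k] V →ₗ[k] k)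
    (hT : ∀ φ a m, T (mulHom φ a) m = T φ (a • m))
    (hsep : ∀ m : V, m ≠ 0 → ∃ φ, T φ m ≠ 0)
    (hker : ∀ φ, T φ = 0 ↔ ∃ ψ : Q₂ →ₗ[A] A, ψ.comp d₃ = φ)
    (X : ModuleCat.{u} A) (n : ℕ) (hn : 4 ≤ n) : Subsingleton (Ext X V n) := by
  have := injective_homDual (k := k) (A := A) (Q := Q₀)
  have := injective_homDual (k := k) (A := A) (Q := Q₁)
  have := injective_homDual (k := k) (A := A) (Q := Q₂)
  have := injective_homDual (k := k) (A := A) (Q := Q₃)
  let ι : V ⟶ homDual k A Q₃ := ModuleCat.ofHom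
    { toFun := fun m => ⟨(Module.Dual.eval k V m) ∘ₗ T⟩
      map_add' := fun m m' => HD.ext fun φ => by simp
      map_smul' := fun a m => HD.ext fun φ => (hT φ a m).symm }
  refine ext_eq_zero_of_coresolution ι (homDualMap d₃) (homDualMap d₂) (homDualMap d₁) ?_ ?_
    (range_homDualMap d₃ d₂ (fun φ => by rw [LinearMap.comp_assoc, hd₂, LinearMap.comp_zero]) deg₂)
    (range_homDualMap d₂ d₁ (fun φ => by rw [LinearMap.comp_assoc, hd₁, LinearMap.comp_zero]) deg₁)
    (surjective_homDualMap d₁ deg₀) X n hn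
  · refine (injective_iff_map_eq_zero _).2 fun m hm => by_contra fun hm0 => ?_
    obtain ⟨φ, hφ⟩ := hsep m hm0
    exact hφ (congrArg (fun F : HD k A Q₃ => F.toFun φ) hm)
  · ext F
    simp only [LinearMap.mem_range, LinearMap.mem_ker]
    constructor
    · rintro ⟨m, rfl⟩
      refine HD.ext fun φ => ?_
      show T (φ.comp d₃) m = 0
      rw [(hker _).2 ⟨φ, rfl⟩]
      rfl
    · intro hF
      obtain ⟨G, hG⟩ := exists_functional_factor T F.toFun fun φ hφ => by
        obtain ⟨ψ, rfl⟩ := (hker φ).1 hφ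
        rw [← homDualMap_apply, hF]
        rfl
      obtain ⟨m, hm⟩ := (Module.evalEquiv k V).surjective G
      refine ⟨m, HD.ext fun φ => ?_⟩
      rw [← hG, ← hm]
      rfl

end Vale.Agent.P195
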