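import Mathlib.Algebra.Category.ModuleCat.Algebra
import Mathlib.Algebra.Category.ModuleCat.Ext.HasExt
import Mathlib.Algebra.Category.ModuleCat.EpiMono
import Mathlib.Algebra.Category.ModuleCat.Abelian
import Mathlib.Algebra.Homology.DerivedCategory.Ext.EnoughInjectives
import Mathlib.Algebra.Homology.DerivedCategory.Ext.ExactSequences
import Mathlib.Algebra.Homology.ShortComplex.ModuleCat
import Mathlib.LinearAlgebra.Basis.VectorSpace
import Mathlib.LinearAlgebra.FiniteDimensional.Basic
import Mathlib.RingTheory.Finiteness.Basic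

/-!
P195: the injective modules `Hom (e A, k)` of an algebra `A` over a field `k`, maps into them as
functionals, and vanishing of `Ext` above the length of an injective coresolution.
-/

namespace Vale.Agent.P195

open CategoryTheory Abelian

universe u

variable {k A : Type u} [Field k] [Ring A] [Algebra k A]

attribute [local instance] ModuleCat.moduleOfAlgebraModule ModuleCat.isScalarTower_of_algebra_moduleCat

/-- Functionals on the right ideal `e A`, written as functionals on `A` fixed by `e`. -/
structure DE (k : Type u) {A : Type u} [Field k] [Ring A] [Algebra k A] (e : A) : Type u where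
  /-- The functional. -/
  toFun : A →ₗ[k] k
  /-- It only depends on the product with `e`. -/
  fixed : ∀ x, toFun (e * x) = toFun x

namespace DE

variable {e : A}

@[ext] theorem ext {f g : DE k e} (h : ∀ x, f.toFun x = g.toFun x) : f = g := by
  cases f; cases g; congr; exact LinearMap.ext h

instance : Zero (DE k e) := ⟨⟨0, fun _ => rfl⟩⟩
instance : Add (DE k e) := ⟨fun f g => ⟨f.toFun + g.toFun, fun x => by simp [f.fixed, g.fixed]⟩⟩
instance : Neg (DE k e) := ⟨fun f => ⟨-f.toFun, fun x => by simp [f.fixed]⟩⟩

@[simp] theorem zero_toFun : (0 : DE k e).toFun = 0 := rfl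
@[simp] theorem add_toFun (f g : DE k e) : (f + g).toFun = f.toFun + g.toFun := rfl
@[simp] theorem neg_toFun (f : DE k e) : (-f).toFun = -f.toFun := rfl

instance : AddCommGroup (DE k e) where
  nsmul := nsmulRec
  zsmul := zsmulRec
  add_assoc a b c := by ext; simp [add_assoc]
  zero_add a := by ext; simp
  add_zero a := by ext; simp
  neg_add_cancel a := by ext; simp
  add_comm a b := by ext; simp [add_comm]

instance : SMul A (DE k e) :=
  ⟨fun a f => ⟨f.toFun ∘ₗ LinearMap.mulRight k a, fun x => by simp [mul_assoc, f.fixed]⟩⟩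

@[simp] theorem smul_toFun (a : A) (f : DE k e) (x : A) :
    (a • f).toFun x = f.toFun (x * a) := rfl

instance : Module A (DE k e) where
  one_smul f := by ext; simp
  mul_smul a b f := by ext; simp [mul_assoc]
  smul_zero a := by ext; simp
  smul_add a f g := by ext; simp
  add_smul a b f := by ext; simp [mul_add]
  zero_smul f := by ext; simp

end DE

/-- The module `Hom (e A, k)`. -/
abbrev dualIdeal (k : Type u) {A : Type u} [Field k] [Ring A] [Algebra k A] (e : A) :
    ModuleCat.{u} A :=
  ModuleCat.of A (DE k e)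

variable {e : A} {M : ModuleCat.{u} A}

/-- A functional on `M` that only depends on the action of `e`, as a map into `Hom (e A, k)`. -/
def toDualIdeal (φ : M →ₗ[k] k) (h : ∀ m, φ (e • m) = φ m) : M ⟶ dualIdeal k e :=
  ModuleCat.ofHom
    { toFun m := ⟨φ ∘ₗ (LinearMap.toSpanSingleton A M m).restrictScalars k, fun x => by
          simp [mul_smul, h]⟩
      map_add' m n := by ext; simp [smul_add]
      map_smul' a m := by ext; simp [mul_smul] }

@[simp] theorem toDualIdeal_apply (φ : M →ₗ[k] k) (h : ∀ m, φ (e • m) = φ m) (m : M) (x : A) :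
    ((toDualIdeal φ h).hom m).toFun x = φ (x • m) := rfl

/-- The functional of a map into `Hom (e A, k)`. -/
def functional (f : M ⟶ dualIdeal k e) : M →ₗ[k] k where
  toFun m := (f.hom m).toFun 1
  map_add' m n := by simp
  map_smul' c m := by
    rw [show c • m = algebraMap k A c • m from (algebraMap_smul A c m).symm, map_smul,
      DE.smul_toFun, one_mul, Algebra.algebraMap_eq_smul_one, map_smul]
    rfl

theorem functional_fixed (f : M ⟶ dualIdeal k e) (m : M) :
    functional f (e • m) = functional f m := by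
  show (f.hom (e • m)).toFun 1 = (f.hom m).toFun 1
  rw [map_smul, DE.smul_toFun, one_mul, ← (f.hom m).fixed 1, mul_one]

theorem hom_apply_toFun (f : M ⟶ dualIdeal k e) (m : M) (x : A) :
    (f.hom m).toFun x = functional f (x • m) := by
  show _ = (f.hom (x • m)).toFun 1
  rw [map_smul, DE.smul_toFun, one_mul]

theorem hom_ext_dualIdeal {f g : M ⟶ dualIdeal k e} (h : ∀ m, functional f m = functional g m) :
    f = g := by
  refine ModuleCat.hom_ext (LinearMap.ext fun m => DE.ext fun x => ?_)
  rw [hom_apply_toFun, hom_apply_toFun, h]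

@[simp] theorem functional_toDualIdeal (φ : M →ₗ[k] k) (h : ∀ m, φ (e • m) = φ m) (m : M) :
    functional (toDualIdeal φ h) m = φ m := by
  show φ ((1 : A) • m) = φ m
  rw [one_smul]

/-- `Hom (e A, k)` is injective for an idempotent `e`. -/
theorem injective_dualIdeal (he : e * e = e) : Injective (dualIdeal k e) := by
  refine ⟨fun {X Y} g f hf => ?_⟩
  obtain ⟨r, hr⟩ := (f.hom.restrictScalars k).exists_leftInverse_of_injective
    (LinearMap.ker_eq_bot.2 ((ModuleCat.mono_iff_injective f).1 hf))
  let φ : Y →ₗ[k] k := functional g ∘ₗ r ∘ₗ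
    { toFun := fun y => e • y
      map_add' := fun _ _ => smul_add _ _ _
      map_smul' := fun c y => smul_comm e c y }
  refine ⟨toDualIdeal φ fun y => by simp [φ, ← mul_smul, he], hom_ext_dualIdeal fun x => ?_⟩
  show functional (toDualIdeal φ fun y => by simp [φ, ← mul_smul, he]) (f.hom x) = _
  rw [functional_toDualIdeal]
  show functional g (r (e • f.hom x)) = _
  rw [← map_smul, show r (f.hom (e • x)) = e • x from LinearMap.congr_fun hr _, functional_fixed]

/-- A map into `Hom (e A, k)` is mono when no nonzero element is killed by the functional. -/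
theorem mono_toDualIdeal (φ : M →ₗ[k] k) (h : ∀ m, φ (e • m) = φ m)
    (hφ : ∀ m : M, m ≠ 0 → ∃ x : A, φ (x • m) ≠ 0) : Mono (toDualIdeal φ h) := by
  rw [ModuleCat.mono_iff_injective]
  refine (injective_iff_map_eq_zero _).2 fun m hm => by_contra fun hm0 => ?_
  obtain ⟨x, hx⟩ := hφ m hm0
  exact hx (by rw [← toDualIdeal_apply φ h m x, hm]; rfl)

/-- If `e` acts with one-dimensional image, every map into `Hom (e A, k)` is a multiple of the
one of a functional nonzero on that image. -/
theorem exists_endo_comp_toDualIdeal (φ : M →ₗ[k] k) (h : ∀ m, φ (e • m) = φ m) (v : M)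
    (hdim : ∀ m : M, e • m = φ m • e • v) (f : M ⟶ dualIdeal k e) :
    ∃ a : M ⟶ M, a ≫ toDualIdeal φ h = f := by
  let c := functional f v
  refine ⟨ModuleCat.ofHom
    { toFun := fun m => algebraMap k A c • m
      map_add' := fun _ _ => smul_add _ _ _
      map_smul' := fun a m => by
        rw [RingHom.id_apply, ← mul_smul, Algebra.commutes, mul_smul] },
    hom_ext_dualIdeal fun m => ?_⟩
  show functional (toDualIdeal φ h) (algebraMap k A c • m) = functional f m
  rw [functional_toDualIdeal, algebraMap_smul, map_smul, ← functional_fixed f m, hdim m, map_smul,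
    functional_fixed]
  simp [c, mul_comm]

/-- Left multiplication by `b ∈ e A e'` between right ideals, dualised. -/
def dualIdealMap {e' : A} (b : A) (hb : b * e' = b) : dualIdeal k e ⟶ dualIdeal k e' :=
  ModuleCat.ofHom
    { toFun f := ⟨f.toFun ∘ₗ LinearMap.mulLeft k b, fun x => by simp [← mul_assoc, hb]⟩
      map_add' f g := DE.ext fun x => by simp
      map_smul' a f := DE.ext fun x => by simp [mul_assoc] }

@[simp] theorem dualIdealMap_apply {e' : A} (b : A) (hb : b * e' = b) (f : dualIdeal k e) (x : A) :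
    ((dualIdealMap (k := k) (e := e) b hb).hom f).toFun x = f.toFun (b * x) := rfl

/-- `Hom (e A, k)` is finitely generated when `A` is finite-dimensional. -/
instance finite_dualIdeal [Module.Finite k A] : Module.Finite A (DE k e) := by
  let : Module k (DE k e) := Module.compHom _ (algebraMap k A)
  have : IsScalarTower k A (DE k e) := ⟨fun c a f => by
    show (c • a) • f = algebraMap k A c • a • f
    rw [Algebra.smul_def, mul_smul]⟩
  let ι : DE k e →ₗ[k] (A →ₗ[k] k) :=
    { toFun := fun f => f.toFun
      map_add' := fun _ _ => rfl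
      map_smul' := fun c f => by
        refine LinearMap.ext fun x => ?_
        show ((algebraMap k A c) • f).toFun x = c * f.toFun x
        rw [DE.smul_toFun, ← Algebra.commutes, ← Algebra.smul_def, map_smul, smul_eq_mul] }
  have : Module.Finite k (DE k e) :=
    FiniteDimensional.of_injective ι fun f g h => DE.ext (LinearMap.congr_fun h)
  exact Module.Finite.of_restrictScalars_finite k A (DE k e)

section

variable {X Y Z W : ModuleCat.{u} A}

/-- One step of dimension shifting along an injective module. -/
theorem ext_succ_of_mono {S : ShortComplex (ModuleCat.{u} A)} (hS : S.ShortExact)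
    [Injective S.X₂] (n : ℕ) (h : Subsingleton (Ext X S.X₃ n)) :
    Subsingleton (Ext X S.X₁ (n + 1)) := by
  refine subsingleton_of_forall_eq 0 fun x => ?_
  obtain ⟨y, rfl⟩ := Ext.covariant_sequence_exact₁ X hS x (Ext.eq_zero_of_injective _) rfl
  rw [Subsingleton.elim y 0, Ext.zero_comp]

/-- A module with an injective coresolution of length three has no `Ext` in degrees `≥ 4`. -/
theorem ext_eq_zero_of_coresolution {J₀ J₁ J₂ J₃ : ModuleCat.{u} A} [Injective J₀] [Injective J₁]
    [Injective J₂] [Injective J₃] (ι : M ⟶ J₀) (d₀ : J₀ ⟶ J₁) (d₁ : J₁ ⟶ J₂) (d₂ : J₂ ⟶ J₃)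
    (hι : Function.Injective ι.hom) (h₀ : LinearMap.range ι.hom = LinearMap.ker d₀.hom)
    (h₁ : LinearMap.range d₀.hom = LinearMap.ker d₁.hom)
    (h₂ : LinearMap.range d₁.hom = LinearMap.ker d₂.hom) (hd : Function.Surjective d₂.hom)
    (X : ModuleCat.{u} A) (n : ℕ) (hn : 4 ≤ n) : Subsingleton (Ext X M n) := by
  let C₁ := ModuleCat.of A (LinearMap.range d₀.hom)
  let C₂ := ModuleCat.of A (LinearMap.range d₁.hom)
  let i₁ : C₁ ⟶ J₁ := ModuleCat.ofHom (Submodule.subtype _)
  let i₂ : C₂ ⟶ J₂ := ModuleCat.ofHom (Submodule.subtype _)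
  let q₁ : J₀ ⟶ C₁ := ModuleCat.ofHom d₀.hom.rangeRestrict
  let q₂ : J₁ ⟶ C₂ := ModuleCat.ofHom d₁.hom.rangeRestrict
  have mk : ∀ {P Q R : ModuleCat.{u} A} (f : P ⟶ Q) (g : Q ⟶ R)
      (hf : Function.Injective f.hom) (hg : Function.Surjective g.hom)
      (he : LinearMap.range f.hom = LinearMap.ker g.hom),
      ∃ w : f ≫ g = 0, (ShortComplex.mk f g w).ShortExact := by
    intro P Q R f g hf hg he
    refine ⟨?_, ShortComplex.ShortExact.mk'
      ((ShortComplex.moduleCat_exact_iff_range_eq_ker _).2 he)
      ((ModuleCat.mono_iff_injective _).2 hf) ((ModuleCat.epi_iff_surjective _).2 hg)⟩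
    ext x
    exact LinearMap.mem_ker.1 (he.le (LinearMap.mem_range_self f.hom x))
  obtain ⟨w₁, s₁⟩ := mk ι q₁ hι d₀.hom.surjective_rangeRestrict (h₀.trans (LinearMap.ker_rangeRestrict _).symm)
  obtain ⟨w₂, s₂⟩ := mk i₁ q₂ Subtype.val_injective d₁.hom.surjective_rangeRestrict
    ((Submodule.range_subtype _).trans (h₁.trans (LinearMap.ker_rangeRestrict _).symm))
  obtain ⟨w₃, s₃⟩ := mk i₂ d₂ Subtype.val_injective hd ((Submodule.range_subtype _).trans h₂)
  obtain ⟨m, rfl⟩ : ∃ m, n = m + 1 + 1 + 1 + 1 := ⟨n - 4, by omega⟩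
  have : Injective (ShortComplex.mk ι q₁ w₁).X₂ := ‹Injective J₀›
  have : Injective (ShortComplex.mk i₁ q₂ w₂).X₂ := ‹Injective J₁›
  have : Injective (ShortComplex.mk i₂ d₂ w₃).X₂ := ‹Injective J₂›
  exact ext_succ_of_mono s₁ _ (ext_succ_of_mono s₂ _ (ext_succ_of_mono s₃ _
    (Ext.subsingleton_of_injective X J₃ m)))

end

end Vale.Agent.P195
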