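import Mathlib.Algebra.Category.ModuleCat.Ext.HasExt
import Mathlib.Algebra.Category.ModuleCat.EnoughInjectives
import Mathlib.Algebra.Category.ModuleCat.Abelian
import Mathlib.Algebra.Homology.DerivedCategory.Ext.EnoughInjectives
import Mathlib.Algebra.Homology.DerivedCategory.Ext.ExactSequences
import Mathlib.Algebra.Homology.DerivedCategory.Ext.EnoughProjectives
import Mathlib.Algebra.Homology.ShortComplex.ModuleCat

/-!
P195: from an injective module `I` containing `V`, a projective cover of `I`, and a class in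
`Ext^3 (I, V)` extending a generator of `Ext^3 (V, V)`, a module `U` with `RHom (V, U) = 0` and
maps `w : P ⟶ U`, `y : U ⟶ P` closing up into the periodic sequence used by the gluing.
-/

namespace Vale.Agent.P195

open CategoryTheory Abelian Limits

universe u

variable {A : Type u} [Ring A]

/-- Every class of degree one is the class of an extension. -/
theorem exists_extension (K W : ModuleCat.{u} A) (ξ : Ext K W 1) :
    ∃ (U : ModuleCat.{u} A) (i : W ⟶ U) (p : U ⟶ K) (hw : i ≫ p = 0)
      (hU : (ShortComplex.mk i p hw).ShortExact), hU.extClass = ξ := by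
  obtain ⟨J⟩ := (inferInstance : EnoughInjectives (ModuleCat.{u} A)).presentation W
  let R := ShortComplex.mk J.f (cokernel.π J.f) (cokernel.condition _)
  have hR : R.ShortExact :=
    { exact := ShortComplex.exact_of_g_is_cokernel _ (cokernelIsCokernel J.f) }
  obtain ⟨x, hx⟩ := Ext.covariant_sequence_exact₁ K hR ξ
    (Ext.eq_zero_of_injective (n := 0) _) (n₀ := 0) rfl
  obtain ⟨h, rfl⟩ := (Ext.mk₀_bijective _ _).2 x
  let q := (cokernel.π J.f).hom
  let D := LinearMap.ker (h.hom ∘ₗ LinearMap.fst A K J.J - q ∘ₗ LinearMap.snd A K J.J)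
  have hD : ∀ z : D, h.hom z.1.1 = q z.1.2 := fun z => sub_eq_zero.1 z.2
  have hf : ∀ w : W, q (J.f.hom w) = 0 := fun w => by
    simp [q]
  let i : W ⟶ ModuleCat.of A D := ModuleCat.ofHom
    ((LinearMap.prod 0 J.f.hom).codRestrict D fun w => by simp [D, hf])
  let p : ModuleCat.of A D ⟶ K := ModuleCat.ofHom (LinearMap.fst A K J.J ∘ₗ D.subtype)
  have hw : i ≫ p = 0 := by ext w; rfl
  have hinj : Function.Injective J.f.hom := (ModuleCat.mono_iff_injective _).1 J.mono
  have hU : (ShortComplex.mk i p hw).ShortExact := by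
    refine ShortComplex.ShortExact.mk' ?_ ((ModuleCat.mono_iff_injective _).2 ?_)
      ((ModuleCat.epi_iff_surjective _).2 ?_)
    · rw [ShortComplex.moduleCat_exact_iff]
      intro z (hz : z.1.1 = 0)
      have hq : q z.1.2 = 0 := by rw [← hD z, hz, map_zero]
      obtain ⟨w, hw'⟩ := (ShortComplex.moduleCat_exact_iff R).1 hR.exact z.1.2 hq
      exact ⟨w, Subtype.ext (Prod.ext hz.symm hw')⟩
    · intro a b hab
      exact hinj (congrArg (fun z : D => z.1.2) hab)
    · intro k
      obtain ⟨j, hj⟩ := (ModuleCat.epi_iff_surjective (cokernel.π J.f)).1 inferInstance (h.hom k)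
      exact ⟨⟨(k, j), by simpa [D, q, sub_eq_zero] using hj.symm⟩, rfl⟩
  let φ : ShortComplex.mk i p hw ⟶ R :=
    { τ₁ := 𝟙 W
      τ₂ := ModuleCat.ofHom (LinearMap.snd A K J.J ∘ₗ D.subtype)
      τ₃ := h
      comm₁₂ := by ext w; rfl
      comm₂₃ := by ext z; exact (hD z).symm }
  refine ⟨_, i, p, hw, hU, ?_⟩
  have := ShortComplex.ShortExact.extClass_naturality hU hR φ
  simp only [φ] at this
  rw [hx] at this
  simpa using this

variable {V I P : ModuleCat.{u} A}

/-- If `Ext^4 (I / V, V)` vanishes then every class in `Ext^3 (V, V)` extends to `I`. -/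
theorem exists_lift_of_ext_four (ι : V ⟶ I) [Mono ι]
    (h : Subsingleton (Ext (cokernel ι) V 4)) (g : Ext V V 3) :
    ∃ η : Ext I V 3, (Ext.mk₀ ι).comp η (zero_add 3) = g := by
  let S := ShortComplex.mk ι (cokernel.π ι) (cokernel.condition _)
  have hS : S.ShortExact :=
    { exact := ShortComplex.exact_of_g_is_cokernel _ (cokernelIsCokernel ι) }
  exact Ext.contravariant_sequence_exact₁ hS V g (n₁ := 4) rfl (Subsingleton.elim _ _)

/-- The module closing up the periodic sequence. -/
theorem exists_closing_module (ι : V ⟶ I) [Mono ι] [Injective I] (π : P ⟶ I) [Epi π] [Projective P]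
    (hVI : ∀ f : V ⟶ I, ∃ a : V ⟶ V, a ≫ ι = f)
    (hP : ∀ n, Subsingleton (Ext V P n))
    (h1 : Subsingleton (Ext V V 1)) (h2 : Subsingleton (Ext V V 2))
    (h4 : ∀ n, 4 ≤ n → Subsingleton (Ext V V n)) (g : Ext V V 3)
    (hg0 : ∀ a : V ⟶ V, (Ext.mk₀ a).comp g (zero_add 3) = 0 → a = 0)
    (hg : ∀ x : Ext V V 3, ∃ a : V ⟶ V, (Ext.mk₀ a).comp g (zero_add 3) = x)
    (η : Ext I V 3) (hη : (Ext.mk₀ ι).comp η (zero_add 3) = g) :
    ∃ (U : ModuleCat.{u} A) (y : U ⟶ P) (w : P ⟶ U),
      (∀ n, Subsingleton (Ext V U n)) ∧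
      LinearMap.ker y.hom = LinearMap.range w.hom ∧
      LinearMap.range y.hom = LinearMap.ker π.hom ∧
      LinearMap.ker w.hom = (LinearMap.range ι.hom).comap π.hom ∧
      y ≫ w = 0 ∧ w ≫ y = 0 := by
  let S := ShortComplex.mk ι (cokernel.π ι) (cokernel.condition _)
  have hS : S.ShortExact :=
    { exact := ShortComplex.exact_of_g_is_cokernel _ (cokernelIsCokernel ι) }
  let T := ShortComplex.mk (kernel.ι π) π (kernel.condition _)
  have hT : T.ShortExact :=
    { exact := ShortComplex.exact_of_f_is_kernel _ (kernelIsKernel π) }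
  have : Injective S.X₂ := ‹Injective I›
  have : Projective T.X₂ := ‹Projective P›
  obtain ⟨η₂, hη₂⟩ := Ext.covariant_sequence_exact₁ I hS η
    (Ext.eq_zero_of_injective (n := 2) _) (n₀ := 2) rfl
  obtain ⟨ξ, rfl⟩ := Ext.contravariant_sequence_exact₃ hT S.X₃ η₂
    (Ext.eq_zero_of_projective _) (n₀ := 1) rfl
  obtain ⟨U, i, p, hw, hU, hξ⟩ := exists_extension T.X₁ S.X₃ ξ
  subst hξ
  -- vanishing of `Ext (V, I / V)` away from degree two
  have hW : ∀ n, n ≠ 2 → ∀ z : Ext V S.X₃ n, z = 0 := by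
    intro n hn z
    have hz : z.comp hS.extClass (rfl : n + 1 = n + 1) = 0 := by
      match n, hn with
      | 0, _ => exact Subsingleton.elim _ _
      | 1, _ => exact Subsingleton.elim _ _
      | n + 3, _ => exact (h4 _ (by omega)).elim _ _
    obtain ⟨f, rfl⟩ := Ext.covariant_sequence_exact₃ V hS z rfl hz
    cases n with
    | zero =>
      obtain ⟨f, rfl⟩ := (Ext.mk₀_bijective _ _).2 f
      obtain ⟨a, rfl⟩ := hVI f
      simp [S, Ext.mk₀_comp_mk₀]
    | succ m => rw [Ext.eq_zero_of_injective f, Ext.zero_comp]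
  -- vanishing of `Ext (V, kernel π)` away from degree one
  have hK : ∀ n, n ≠ 1 → ∀ c : Ext V T.X₁ n, c = 0 := by
    intro n hn c
    cases n with
    | zero =>
      obtain ⟨f, rfl⟩ := (Ext.mk₀_bijective _ _).2 c
      have h0 : f ≫ T.f = 0 := (Ext.mk₀_bijective _ _).1 ((hP 0).elim _ _)
      have : f = 0 := (cancel_mono (kernel.ι π)).1 (by simpa [T] using h0)
      simp [this]
    | succ m =>
      obtain ⟨f, rfl⟩ := Ext.covariant_sequence_exact₁ V hT c ((hP _).elim _ _) (n₀ := m) rfl
      cases m with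
      | zero => omega
      | succ k =>
        have hf : f = 0 := Ext.eq_zero_of_injective (I := I) f
        rw [hf, Ext.zero_comp]
  -- the connecting classes in degree one
  have hc : ∀ a : V ⟶ V, ((((Ext.mk₀ (a ≫ ι)).comp hT.extClass (zero_add 1)).comp hU.extClass
      (rfl : 1 + 1 = 2)).comp hS.extClass (rfl : 2 + 1 = 3)) =
      (Ext.mk₀ a).comp g (zero_add 3) := by
    intro a
    rw [← hη, ← hη₂, ← Ext.mk₀_comp_mk₀]
    simp only [Ext.comp_assoc_of_second_deg_zero,
      Ext.comp_assoc _ _ _ (zero_add 1) (rfl : 1 + 1 = 2) (by omega : 0 + 1 + 1 = 2),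
      Ext.comp_assoc _ _ _ (zero_add 2) (rfl : 2 + 1 = 3) (by omega : 0 + 2 + 1 = 3)]
  refine ⟨U, p ≫ T.f, π ≫ S.g ≫ i, fun n => subsingleton_of_forall_eq 0 fun x => ?_,
    ?_, ?_, ?_, ?_, ?_⟩
  · have hp : x.comp (Ext.mk₀ p) (add_zero n) = 0 := by
      by_cases hn : n = 1
      · subst hn
        set c := x.comp (Ext.mk₀ p) (add_zero 1) with hcdef
        obtain ⟨f, hf⟩ := Ext.covariant_sequence_exact₁ V hT c ((hP _).elim _ _) (n₀ := 0) rfl
        obtain ⟨f, rfl⟩ := (Ext.mk₀_bijective _ _).2 f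
        obtain ⟨a, rfl⟩ := hVI f
        have h0 : c.comp hU.extClass (rfl : 1 + 1 = 2) = 0 := by
          rw [hcdef, Ext.comp_assoc_of_second_deg_zero, hU.comp_extClass, Ext.comp_zero]
        rw [← hf] at h0 ⊢
        have := hc a
        rw [h0, Ext.zero_comp] at this
        simp [hg0 a this.symm]
      · exact hK n hn _
    obtain ⟨z, rfl⟩ := Ext.covariant_sequence_exact₂ V hU x hp
    by_cases hn : n = 2
    · subst hn
      obtain ⟨a, ha⟩ := hg (z.comp hS.extClass rfl)
      rw [← hc a] at ha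
      have hz : (z - ((Ext.mk₀ (a ≫ ι)).comp hT.extClass (zero_add 1)).comp hU.extClass rfl).comp
          hS.extClass (rfl : 2 + 1 = 3) = 0 := by
        rw [sub_eq_add_neg, Ext.add_comp, Ext.neg_comp, ← ha, add_neg_cancel]
      obtain ⟨f, hf⟩ := Ext.covariant_sequence_exact₃ V hS _ rfl hz
      rw [Ext.eq_zero_of_injective (I := I) f, Ext.zero_comp, eq_comm, sub_eq_zero] at hf
      rw [hf, Ext.comp_assoc_of_third_deg_zero, hU.extClass_comp, Ext.comp_zero]
    · rw [hW n hn z, Ext.zero_comp]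
  · have hex := (ShortComplex.moduleCat_exact_iff _).1 hU.exact
    have hk := (ModuleCat.mono_iff_injective T.f).1 hT.mono_f
    have hπ := (ModuleCat.epi_iff_surjective π).1 inferInstance
    have hq := (ModuleCat.epi_iff_surjective S.g).1 hS.epi_g
    ext z
    simp only [LinearMap.mem_ker, LinearMap.mem_range]
    constructor
    · intro hz
      obtain ⟨v, hv⟩ := hex z (hk (by simpa using hz))
      obtain ⟨b, rfl⟩ := hq v
      obtain ⟨c, rfl⟩ := hπ b
      exact ⟨c, hv⟩
    · rintro ⟨c, rfl⟩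
      show T.f ((i ≫ p) (S.g (π c))) = 0
      simp [hw]
  · have hp := (ModuleCat.epi_iff_surjective p).1 hU.epi_g
    ext z
    simp only [LinearMap.mem_ker, LinearMap.mem_range]
    constructor
    · rintro ⟨u, rfl⟩
      show (T.f ≫ T.g) (p u) = 0
      simp [T.zero]
    · intro hz
      obtain ⟨k, rfl⟩ := (ShortComplex.moduleCat_exact_iff T).1 hT.exact z hz
      obtain ⟨u, rfl⟩ := hp k
      exact ⟨u, rfl⟩
  · have hi := (ModuleCat.mono_iff_injective i).1 hU.mono_f
    ext z
    simp only [LinearMap.mem_ker, Submodule.mem_comap, LinearMap.mem_range]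
    constructor
    · intro hz
      exact (ShortComplex.moduleCat_exact_iff S).1 hS.exact _ (hi (by simpa using hz))
    · rintro ⟨v, hv⟩
      show i (S.g (π z)) = 0
      rw [← show (ι v) = π z from hv]
      show i ((S.f ≫ S.g) v) = 0
      simp [S.zero]
  · simp [T]
  · simp [reassoc_of% hw]

end Vale.Agent.P195
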