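import Mathlib.Algebra.Category.ModuleCat.Ext.HasExt
import Mathlib.Algebra.Category.ModuleCat.Abelian
import Mathlib.Algebra.Category.ModuleCat.Projective
import Mathlib.Algebra.Category.ModuleCat.Algebra
import Mathlib.Algebra.Homology.DerivedCategory.Ext.EnoughProjectives
import Mathlib.Algebra.Homology.DerivedCategory.Ext.ExactSequences
import Mathlib.Algebra.Homology.DerivedCategory.Ext.Linear
import Mathlib.Algebra.Homology.ShortComplex.ModuleCat

/-!
Small toolkit for `Ext` of modules: long exact sequence facts, stated for linear maps.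
-/

namespace P195.ExtSeq

open CategoryTheory Abelian

variable {R : Type} [Ring R]

/-- `Ext^n` of modules, in `ModuleCat`. -/
abbrev E (N X : Type) [AddCommGroup N] [Module R N] [AddCommGroup X] [Module R X] (n : ℕ) : Type :=
  Ext.{0} (ModuleCat.of R N) (ModuleCat.of R X) n

variable {L P N X : Type} [AddCommGroup L] [Module R L] [AddCommGroup P] [Module R P]
  [AddCommGroup N] [Module R N] [AddCommGroup X] [Module R X]

variable (f : L →ₗ[R] P) (g : P →ₗ[R] N)

/-- The short complex of a pair of maps. -/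
abbrev sc (hex : Function.Exact f g) : ShortComplex (ModuleCat.{0} R) :=
  ShortComplex.moduleCatMk f g hex.linearMap_comp_eq_zero

lemma sc_shortExact (hf : Function.Injective f) (hg : Function.Surjective g)
    (hex : Function.Exact f g) : (sc f g hex).ShortExact :=
  ModuleCat.shortComplex_shortExact _ hex hf hg

variable {f g}

lemma comp_eq_zero {S : ShortComplex (ModuleCat.{0} R)} (h : S.ShortExact) {Y : ModuleCat.{0} R}
    (v : S.X₂ ⟶ Y) : h.extClass.comp (Ext.mk₀ (S.f ≫ v)) (add_zero 1) = 0 := by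
  rw [← Ext.mk₀_comp_mk₀, ← Ext.comp_assoc_of_second_deg_zero, h.extClass_comp, Ext.zero_comp]

lemma ext_proj [Module.Projective R P] (X : Type) [AddCommGroup X] [Module R X] {n : ℕ}
    (x : E (R := R) P X (n + 1)) : x = 0 :=
  Ext.eq_zero_of_projective x

/-- If `Ext^n(L,X) = 0` and the middle term is projective, then `Ext^(n+1)(N,X) = 0`. -/
lemma shift (hf : Function.Injective f) (hg : Function.Surjective g) (hex : Function.Exact f g)
    [Module.Projective R P] {n : ℕ} (h : ∀ x : E (R := R) L X n, x = 0) :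
    ∀ x : E (R := R) N X (n + 1), x = 0 := by
  intro x
  obtain ⟨x1, hx1⟩ := Ext.contravariant_sequence_exact₃ (sc_shortExact f g hf hg hex)
    (ModuleCat.of R X) x (ext_proj X _) (add_comm 1 n)
  have h0 : x1 = 0 := h x1
  rw [← hx1, h0]
  exact Ext.comp_zero _ _ _ _ _

/-- If `Ext^(n+1)(N,X) = 0` and the middle term is projective, then `Ext^n(L,X) = 0` for `n ≥ 1`. -/
lemma unshift (hf : Function.Injective f) (hg : Function.Surjective g) (hex : Function.Exact f g)
    [Module.Projective R P] {n : ℕ} (h : ∀ x : E (R := R) N X (n + 2), x = 0) :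
    ∀ x : E (R := R) L X (n + 1), x = 0 := by
  intro x
  obtain ⟨x2, hx2⟩ := Ext.contravariant_sequence_exact₁ (sc_shortExact f g hf hg hex)
    (ModuleCat.of R X) x (by omega : 1 + (n + 1) = n + 2) (h _)
  have h0 : x2 = 0 := ext_proj X x2
  rw [← hx2, h0]
  exact Ext.comp_zero _ _ _ _ _

/-- `Ext^1(N,X) = 0` if every map from the kernel extends to the projective middle term. -/
lemma ext_one (hf : Function.Injective f) (hg : Function.Surjective g) (hex : Function.Exact f g)
    [Module.Projective R P] (h : ∀ u : L →ₗ[R] X, ∃ v : P →ₗ[R] X, v.comp f = u) :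
    ∀ x : E (R := R) N X 1, x = 0 := by
  intro x
  obtain ⟨x1, hx1⟩ := Ext.contravariant_sequence_exact₃ (sc_shortExact f g hf hg hex)
    (ModuleCat.of R X) x (ext_proj X _) (add_comm 1 0)
  obtain ⟨u, rfl⟩ := (Ext.mk₀_bijective _ _).surjective x1
  obtain ⟨v, hv⟩ := h u.hom
  have hu : u = (sc f g hex).f ≫ ModuleCat.ofHom v := ModuleCat.hom_ext hv.symm
  rw [← hx1, hu]
  exact comp_eq_zero (sc_shortExact f g hf hg hex) _

/-- Conversely, maps extend when `Ext^1(N,X) = 0`. -/
lemma extends_of_ext_one (hf : Function.Injective f) (hg : Function.Surjective g)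
    (hex : Function.Exact f g) (h : ∀ x : E (R := R) N X 1, x = 0) (u : L →ₗ[R] X) :
    ∃ v : P →ₗ[R] X, v.comp f = u := by
  obtain ⟨x2, hx2⟩ := Ext.contravariant_sequence_exact₁ (sc_shortExact f g hf hg hex)
    (ModuleCat.of R X) (Ext.mk₀ (ModuleCat.ofHom u)) (by rfl : 1 + 0 = 1) (h _)
  obtain ⟨v, rfl⟩ := (Ext.mk₀_bijective _ _).surjective x2
  rw [Ext.mk₀_comp_mk₀] at hx2
  exact ⟨v.hom, congrArg ModuleCat.Hom.hom ((Ext.mk₀_bijective _ _).injective hx2)⟩

/-- Vanishing for both ends gives vanishing for the middle (first variable). -/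
lemma middle (hf : Function.Injective f) (hg : Function.Surjective g) (hex : Function.Exact f g)
    {n : ℕ} (hL : ∀ x : E (R := R) L X n, x = 0) (hN : ∀ x : E (R := R) N X n, x = 0) :
    ∀ x : E (R := R) P X n, x = 0 := by
  intro x
  obtain ⟨x1, hx1⟩ := Ext.contravariant_sequence_exact₂ (sc_shortExact f g hf hg hex)
    (ModuleCat.of R X) x (hL _)
  have h0 : x1 = 0 := hN x1
  rw [← hx1, h0]
  exact Ext.comp_zero _ _ _ _ _

/-- Vanishing for both ends gives vanishing for the middle (second variable). -/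
lemma middle_cov (hf : Function.Injective f) (hg : Function.Surjective g) (hex : Function.Exact f g)
    {n : ℕ} (hL : ∀ x : E (R := R) X L n, x = 0) (hN : ∀ x : E (R := R) X N n, x = 0) :
    ∀ x : E (R := R) X P n, x = 0 := by
  intro x
  obtain ⟨x1, hx1⟩ := Ext.covariant_sequence_exact₂ (ModuleCat.of R X)
    (sc_shortExact f g hf hg hex) x (hN _)
  have h0 : x1 = 0 := hL x1
  rw [← hx1, h0]
  exact Ext.zero_comp _ _ _ _ _

/-- Vanishing is inherited by a product of two modules in the second variable. -/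
lemma prod_cov {Y Z : Type} [AddCommGroup Y] [Module R Y] [AddCommGroup Z] [Module R Z] {n : ℕ}
    (hY : ∀ x : E (R := R) X Y n, x = 0) (hZ : ∀ x : E (R := R) X Z n, x = 0) :
    ∀ x : E (R := R) X (Y × Z) n, x = 0 :=
  middle_cov (f := LinearMap.inl R Y Z) (g := LinearMap.snd R Y Z) LinearMap.inl_injective
    LinearMap.snd_surjective Function.Exact.inl_snd hY hZ

end P195.ExtSeq
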