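import Vale.Agent.P195.Glue

/-!
The gluing theorem: gluing data give a counterexample to the Auslander–Reiten conjecture.
-/

namespace P195.Glue

open P195.ExtSeq CategoryTheory

set_option linter.unusedSectionVars false
set_option linter.unusedSimpArgs false

variable {k A U1 U2 : Type} [Field k] [Ring A] [Algebra k A]
  [AddCommGroup U1] [Module A U1] [Module k U1] [IsScalarTower k A U1]
  [AddCommGroup U2] [Module A U2] [Module k U2] [IsScalarTower k A U2]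
  {D : GlueData A U1 U2}

/-- Factor a map through a surjection killing no more than it does. -/
lemma exists_factor {R L P X : Type} [Ring R] [AddCommGroup L] [Module R L] [AddCommGroup P]
    [Module R P] [AddCommGroup X] [Module R X] (q : L →ₗ[R] P) (hq : Function.Surjective q)
    (u : L →ₗ[R] X) (h : ∀ x, q x = 0 → u x = 0) : ∃ g : P →ₗ[R] X, ∀ x, g (q x) = u x := by
  refine ⟨((LinearMap.ker q).liftQ u fun x hx => h x hx).comp
    (q.quotKerEquivOfSurjective hq).symm.toLinearMap, fun x => ?_⟩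
  have : (q.quotKerEquivOfSurjective hq).symm (q x) = Submodule.Quotient.mk x := by
    rw [LinearEquiv.symm_apply_eq]
    rfl
  simp only [LinearMap.comp_apply, LinearEquiv.coe_coe, this]
  exact Submodule.liftQ_apply _ u _

/-! ### Maps out of `Ba` -/

lemma Ba_gen (x : Ba k D) : ∃ r : Tri k D, r.a = 0 ∧ r.c2 = x.1.a ∧
    x = r • (⟨⟨0, 0, 1, 0, 0, 0, 0⟩, rfl, rfl, rfl, rfl, rfl, Submodule.zero_mem _⟩ : Ba k D) := by
  obtain ⟨x, h1, h2, h3, h4, h5, u, hu⟩ := x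
  refine ⟨⟨0, x.a, 0, 0, 0, u, 0⟩, rfl, rfl, Subtype.ext ?_⟩
  show x = (⟨0, x.a, 0, 0, 0, u, 0⟩ : Tri k D) * ⟨0, 0, 1, 0, 0, 0, 0⟩
  ext <;> simp [h1, h2, h3, h4, h5, hu]

lemma Ba_hom_tri (f : Ba k D →ₗ[Tri k D] Tri k D) : ∃ c : k, ∀ x, f x = c • x.1 := by
  let g : Ba k D := ⟨⟨0, 0, 1, 0, 0, 0, 0⟩, rfl, rfl, rfl, rfl, rfl, Submodule.zero_mem _⟩
  have e2g : (⟨0, 1, 0, 0, 0, 0, 0⟩ : Tri k D) • g = g := by
    refine Subtype.ext ?_
    show (⟨0, 1, 0, 0, 0, 0, 0⟩ : Tri k D) * ⟨0, 0, 1, 0, 0, 0, 0⟩ = ⟨0, 0, 1, 0, 0, 0, 0⟩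
    ext <;> simp
  have bg : (⟨0, 0, 0, 1, 0, 0, 0⟩ : Tri k D) • g = 0 := by
    refine Subtype.ext ?_
    show (⟨0, 0, 0, 1, 0, 0, 0⟩ : Tri k D) * ⟨0, 0, 1, 0, 0, 0, 0⟩ = 0
    ext <;> simp
  have hβ : (⟨0, 1, 0, 0, 0, 0, 0⟩ : Tri k D) * f g = f g := by
    rw [← smul_eq_mul, ← map_smul, e2g]
  have hb : (⟨0, 0, 0, 1, 0, 0, 0⟩ : Tri k D) * f g = 0 := by
    rw [← smul_eq_mul, ← map_smul, bg, map_zero]
  have hc2 : (f g).c2 = 0 := by simpa using congrArg Tri.b hb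
  have h1 : (f g).c1 = 0 := by simpa using (congrArg Tri.c1 hβ).symm
  have h3 : (f g).b = 0 := by simpa using (congrArg Tri.b hβ).symm
  have h4 : (f g).u1 = 0 := by simpa using (congrArg Tri.u1 hβ).symm
  have h5 : (f g).u2 = 0 := by simpa using (congrArg Tri.u2 hβ).symm
  have h6 : (f g).z = 0 := by simpa using (congrArg Tri.z hβ).symm
  refine ⟨(f g).a, fun x => ?_⟩
  obtain ⟨r, _, _, rfl⟩ := Ba_gen x
  rw [map_smul]
  show r * f g = (f g).a • (r * g.1)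
  rw [← mul_smul_comm]
  congr 1
  ext <;> simp [g, h1, hc2, h3, h4, h5, h6]

lemma Ba_hom_mod (f : Ba k D →ₗ[Tri k D] Mod k D) (x : Ba k D) : f x = 0 := by
  let g : Ba k D := ⟨⟨0, 0, 1, 0, 0, 0, 0⟩, rfl, rfl, rfl, rfl, rfl, Submodule.zero_mem _⟩
  have e2g : (⟨0, 1, 0, 0, 0, 0, 0⟩ : Tri k D) • g = g := by
    refine Subtype.ext ?_
    show (⟨0, 1, 0, 0, 0, 0, 0⟩ : Tri k D) * ⟨0, 0, 1, 0, 0, 0, 0⟩ = ⟨0, 0, 1, 0, 0, 0, 0⟩
    ext <;> simp
  have h : f g = 0 := by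
    refine (congrArg f e2g).symm.trans ((f.map_smul _ g).trans ?_)
    rw [smul_mod]
    refine Prod.ext (zero_mul _) ?_
    show (0 : A) • (f g).2 + (f g).1 • (LinearMap.range D.y).mkQ (0 : U1) = 0
    simp
  obtain ⟨r, _, _, rfl⟩ := Ba_gen x
  rw [map_smul]
  exact (congrArg (r • ·) h).trans (smul_zero r)

/-! ### Maps out of `Bb` -/

lemma Bb_gen (x : Bb k D) : ∃ r : Tri k D,
    x = r • (⟨⟨0, 0, 0, 1, 0, 0, 0⟩, rfl, rfl, rfl, rfl, rfl, Submodule.zero_mem _⟩ : Bb k D) := by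
  obtain ⟨x, h1, h2, h3, h4, h5, u, hu⟩ := x
  refine ⟨⟨x.b, 0, 0, 0, u, 0, 0⟩, Subtype.ext ?_⟩
  show x = (⟨x.b, 0, 0, 0, u, 0, 0⟩ : Tri k D) * ⟨0, 0, 0, 1, 0, 0, 0⟩
  ext <;> simp [h1, h2, h3, h4, h5, hu]

lemma Bb_hom_tri (f : Bb k D →ₗ[Tri k D] Tri k D) : ∃ c : k, ∀ x, f x = c • x.1 := by
  let g : Bb k D := ⟨⟨0, 0, 0, 1, 0, 0, 0⟩, rfl, rfl, rfl, rfl, rfl, Submodule.zero_mem _⟩
  have e1g : (⟨1, 0, 0, 0, 0, 0, 0⟩ : Tri k D) • g = g := by
    refine Subtype.ext ?_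
    show (⟨1, 0, 0, 0, 0, 0, 0⟩ : Tri k D) * ⟨0, 0, 0, 1, 0, 0, 0⟩ = ⟨0, 0, 0, 1, 0, 0, 0⟩
    ext <;> simp
  have ag : (⟨0, 0, 1, 0, 0, 0, 0⟩ : Tri k D) • g = 0 := by
    refine Subtype.ext ?_
    show (⟨0, 0, 1, 0, 0, 0, 0⟩ : Tri k D) * ⟨0, 0, 0, 1, 0, 0, 0⟩ = 0
    ext <;> simp
  have hβ : (⟨1, 0, 0, 0, 0, 0, 0⟩ : Tri k D) * f g = f g := by
    rw [← smul_eq_mul, ← map_smul, e1g]
  have ha : (⟨0, 0, 1, 0, 0, 0, 0⟩ : Tri k D) * f g = 0 := by
    rw [← smul_eq_mul, ← map_smul, ag, map_zero]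
  have hc1 : (f g).c1 = 0 := by simpa using congrArg Tri.a ha
  have h2 : (f g).c2 = 0 := by simpa using (congrArg Tri.c2 hβ).symm
  have h3 : (f g).a = 0 := by simpa using (congrArg Tri.a hβ).symm
  have h4 : (f g).u1 = 0 := by simpa using (congrArg Tri.u1 hβ).symm
  have h5 : (f g).u2 = 0 := by simpa using (congrArg Tri.u2 hβ).symm
  have h6 : (f g).z = 0 := by simpa using (congrArg Tri.z hβ).symm
  refine ⟨(f g).b, fun x => ?_⟩
  obtain ⟨r, rfl⟩ := Bb_gen x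
  rw [map_smul]
  show r * f g = (f g).b • (r * g.1)
  rw [← mul_smul_comm]
  congr 1
  ext <;> simp [g, hc1, h2, h3, h4, h5, h6]

lemma Bb_hom_mod (hne : ∃ u, D.w u = 0 ∧ u ∉ LinearMap.range D.y)
    (f : Bb k D →ₗ[Tri k D] Mod k D) (x : Bb k D) : f x = 0 := by
  obtain ⟨u, hu, hu'⟩ := hne
  let g : Bb k D := ⟨⟨0, 0, 0, 1, 0, 0, 0⟩, rfl, rfl, rfl, rfl, rfl, Submodule.zero_mem _⟩
  have e1g : (⟨1, 0, 0, 0, 0, 0, 0⟩ : Tri k D) • g = g := by
    refine Subtype.ext ?_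
    show (⟨1, 0, 0, 0, 0, 0, 0⟩ : Tri k D) * ⟨0, 0, 0, 1, 0, 0, 0⟩ = ⟨0, 0, 0, 1, 0, 0, 0⟩
    ext <;> simp
  have ug : (⟨0, 0, 0, 0, u, 0, 0⟩ : Tri k D) • g = 0 := by
    refine Subtype.ext ?_
    show (⟨0, 0, 0, 0, u, 0, 0⟩ : Tri k D) * ⟨0, 0, 0, 1, 0, 0, 0⟩ = 0
    ext <;> simp [hu]
  have h2 : (f g).2 = 0 := by
    have := congrArg Prod.snd ((congrArg f e1g).symm.trans (f.map_smul _ g))
    refine this.trans ?_
    show (0 : A) • (f g).2 + (f g).1 • (LinearMap.range D.y).mkQ (0 : U1) = 0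
    simp
  have h1 : (f g).1 = 0 := by
    have h0 : (⟨0, 0, 0, 0, u, 0, 0⟩ : Tri k D) • f g = 0 := by rw [← map_smul, ug, map_zero]
    have h0' : (0 : A) • (f g).2 + (f g).1 • (LinearMap.range D.y).mkQ u = 0 := congrArg Prod.snd h0
    rw [zero_smul, zero_add] at h0'
    by_contra hc
    exact hu' ((Submodule.Quotient.mk_eq_zero _).1 ((smul_eq_zero.1 h0').resolve_left hc))
  obtain ⟨r, rfl⟩ := Bb_gen x
  rw [map_smul]
  exact (congrArg (r • ·) (show f g = 0 from Prod.ext h1 h2)).trans (smul_zero r)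

/-! ### Maps out of `L3` -/

/-- A map out of `L3` killing `Ba` comes from a map out of `V`. -/
lemma L3_factor {X Y : Type} [AddCommGroup X] [Module (Tri k D) X] [AddCommGroup Y] [Module A Y]
    (j : Res k D Y →ₗ[Tri k D] X) (hj : Function.Injective j)
    (hfix : ∀ x : X, (eA : Tri k D) • x = x → x ∈ LinearMap.range j)
    (f : L3 k D →ₗ[Tri k D] X) (h : ∀ x, f (jBa x) = 0) :
    ∃ g : V D →ₗ[A] Y, ∀ x, f x = j (g (toV x)) := by
  obtain ⟨g, hg⟩ := exists_factor toV toV_surjective f fun x hx => by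
    obtain ⟨z, rfl⟩ := (jBa_exact x).1 hx
    exact h z
  obtain ⟨g', hg'⟩ := exists_toA (N := V D) j hj hfix g
  exact ⟨g', fun x => ((hg' _).trans (hg x)).symm⟩

lemma L3_hom_tri (H : GlueHyp k D) (f : L3 k D →ₗ[Tri k D] Tri k D) :
    ∃ c : k, ∀ x, f x = c • x.1 := by
  obtain ⟨c, hc⟩ := Ba_hom_tri (f.comp jBa)
  refine ⟨c, fun x => ?_⟩
  obtain ⟨g, hg⟩ := L3_factor jTri jTri_injective jTri_fix (f - c • (L3 k D).subtype) fun z => by
    show f (jBa z) - c • z.1 = 0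
    exact sub_eq_zero.2 (hc z)
  have h1 := H.hom_U1 ((LinearMap.fst A U1 (U2 × A)).comp g)
  have h2 := H.hom_U2 ((LinearMap.fst A U2 A).comp ((LinearMap.snd A U1 (U2 × A)).comp g))
  have h3 := H.hom_A ((LinearMap.snd A U2 A).comp ((LinearMap.snd A U1 (U2 × A)).comp g))
  have hg0 : g (toV x) = 0 :=
    Prod.ext (LinearMap.congr_fun h1 _) (Prod.ext (LinearMap.congr_fun h2 _)
      (LinearMap.congr_fun h3 _))
  exact sub_eq_zero.1 ((hg x).trans ((congrArg jTri hg0).trans (jTri (k := k) (D := D)).map_zero))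

lemma L3_hom_mod (H : GlueHyp k D) (f : L3 k D →ₗ[Tri k D] Mod k D) :
    ∃ c : k, (scalar c).comp ((toMod).comp iL3) = f := by
  obtain ⟨g, hg⟩ := L3_factor jMod jMod_injective jMod_fix f fun z => Ba_hom_mod (f.comp jBa) z
  obtain ⟨c, hc⟩ := H.hom_Uv g
  refine ⟨c, LinearMap.ext fun x => ?_⟩
  refine Eq.trans ?_ (hg x).symm
  refine Prod.ext ?_ (hc (toV x)).symm
  show c * x.1.c1 = 0
  rw [x.2.1, mul_zero]

/-! ### Vanishing of `Ext` -/

lemma iBa_injective : Function.Injective (iBa (k := k) (D := D)) :=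
  fun _ _ h => Subtype.ext (congrArg (fun z => z.1) h)

lemma iBb_injective : Function.Injective (iBb (k := k) (D := D)) :=
  fun _ _ h => Subtype.ext (congrArg (fun z => z.1) h)

lemma iL3_injective : Function.Injective (iL3 (k := k) (D := D)) :=
  fun _ _ h => Subtype.ext (congrArg (fun z => z.1) h)

lemma jBa_injective : Function.Injective (jBa (k := k) (D := D)) :=
  fun _ _ h => Subtype.ext (congrArg (fun z => z.1) h)

/-- The periodicity argument. -/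
theorem ext_vanish (hy : ∀ u, D.y u = 0 → ∃ v, D.w v = u) {X : Type} [AddCommGroup X]
    [Module (Tri k D) X]
    (h1 : ∀ u : Ba k D →ₗ[Tri k D] X, ∃ v : P1 k D →ₗ[Tri k D] X, v.comp iBa = u)
    (h2 : ∀ u : Bb k D →ₗ[Tri k D] X, ∃ v : P2 k D →ₗ[Tri k D] X, v.comp iBb = u)
    (h3 : ∀ u : L3 k D →ₗ[Tri k D] X, ∃ v : P1 k D →ₗ[Tri k D] X, v.comp iL3 = u)
    (hV : ∀ (n : ℕ) (x : E (R := Tri k D) (Res k D (V D)) X (n + 1)), x = 0) (n : ℕ) :
    ∀ x : E (R := Tri k D) (Mod k D) X (n + 1), x = 0 := by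
  suffices h : (∀ x : E (R := Tri k D) (Mod k D) X (n + 1), x = 0) ∧
      (∀ x : E (R := Tri k D) (Ba k D) X (n + 1), x = 0) ∧
      (∀ x : E (R := Tri k D) (Bb k D) X (n + 1), x = 0) from h.1
  induction n with
  | zero =>
    exact ⟨ext_one (f := iBa (k := k) (D := D)) (g := toMod (k := k) (D := D)) iBa_injective toMod_surjective
        iBa_exact h1,
      ext_one (f := iBb (k := k) (D := D)) (g := mulA (k := k) (D := D)) iBb_injective mulA_surjective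
        (iBb_exact hy) h2,
      ext_one (f := iL3 (k := k) (D := D)) (g := mulB (k := k) (D := D)) iL3_injective mulB_surjective
        iL3_exact h3⟩
  | succ n ih =>
    exact ⟨shift (f := iBa (k := k) (D := D)) (g := toMod (k := k) (D := D)) iBa_injective toMod_surjective
        iBa_exact ih.2.1,
      shift (f := iBb (k := k) (D := D)) (g := mulA (k := k) (D := D)) iBb_injective mulA_surjective
        (iBb_exact hy) ih.2.2,
      shift (f := iL3 (k := k) (D := D)) (g := mulB (k := k) (D := D)) iL3_injective mulB_surjective iL3_exact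
        (middle (f := jBa (k := k) (D := D)) (g := toV (k := k) (D := D)) jBa_injective toV_surjective jBa_exact
          ih.2.1 (hV n))⟩

theorem ext_mod_tri (H : GlueHyp k D) (n : ℕ) :
    ∀ x : E (R := Tri k D) (Mod k D) (Tri k D) (n + 1), x = 0 := by
  refine ext_vanish H.ker_y (fun u => ?_) (fun u => ?_) (fun u => ?_)
    (fun m => ext_res jTri jTri_injective jTri_fix m (V D)
      (prod_cov (H.ext_U1 m) (prod_cov (H.ext_U2 m) (H.ext_A m)))) n
  · obtain ⟨c, hc⟩ := Ba_hom_tri u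
    exact ⟨c • (P1 k D).subtype, LinearMap.ext fun x => (hc x).symm⟩
  · obtain ⟨c, hc⟩ := Bb_hom_tri u
    exact ⟨c • (P2 k D).subtype, LinearMap.ext fun x => (hc x).symm⟩
  · obtain ⟨c, hc⟩ := L3_hom_tri H u
    exact ⟨c • (P1 k D).subtype, LinearMap.ext fun x => (hc x).symm⟩

theorem ext_mod_mod (H : GlueHyp k D) (n : ℕ) :
    ∀ x : E (R := Tri k D) (Mod k D) (Mod k D) (n + 1), x = 0 := by
  refine ext_vanish H.ker_y (fun u => ⟨0, LinearMap.ext fun x => (Ba_hom_mod u x).symm⟩)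
    (fun u => ⟨0, LinearMap.ext fun x => (Bb_hom_mod H.nontriv u x).symm⟩) (fun u => ?_)
    (fun m => ext_res jMod jMod_injective jMod_fix m (V D) (H.ext_Uv m)) n
  obtain ⟨c, hc⟩ := L3_hom_mod H u
  exact ⟨(scalar c).comp toMod, hc⟩

theorem not_projective : ¬ Module.Projective (Tri k D) (Mod k D) := by
  intro h
  obtain ⟨s, hs⟩ := Module.projective_lifting_property (toMod (k := k) (D := D)) LinearMap.id
    toMod_surjective
  let m : Mod k D := ((1 : k), (0 : Uv D))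
  have hm : (toMod (s m)) = m := LinearMap.congr_fun hs m
  have h1 : (s m).1.c1 = 1 := congrArg Prod.fst hm
  have ha : (⟨0, 0, 1, 0, 0, 0, 0⟩ : Tri k D) • m = 0 := by
    refine Prod.ext (zero_mul _) ?_
    show (0 : A) • (0 : Uv D) + (1 : k) • (LinearMap.range D.y).mkQ (0 : U1) = 0
    simp
  have h0 : ((⟨0, 0, 1, 0, 0, 0, 0⟩ : Tri k D) * (s m).1).a = 0 := by
    have := congrArg Subtype.val ((s.map_smul _ m).symm.trans ((congrArg s ha).trans s.map_zero))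
    exact congrArg Tri.a this
  simp [h1] at h0

instance mod_finite : Module.Finite (Tri k D) (Mod k D) :=
  Module.Finite.of_surjective toMod toMod_surjective

/-- The gluing theorem. -/
theorem counterexample [Module.Finite k A] [Module.Finite k U1] [Module.Finite k U2]
    (H : GlueHyp k D) :
    ∃ (R : Type) (_ : Ring R) (_ : Algebra k R) (_ : Module.Finite k R)
      (M : Type) (_ : AddCommGroup M) (_ : Module R M) (_ : Module.Finite R M),
      ¬ Module.Projective R M ∧ ∀ n : ℕ, 1 ≤ n →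
        Subsingleton (Abelian.Ext.{0} (ModuleCat.of R M) (ModuleCat.of R M) n) ∧
        Subsingleton (Abelian.Ext.{0} (ModuleCat.of R M) (ModuleCat.of R R) n) := by
  refine ⟨Tri k D, inferInstance, inferInstance, inferInstance, Mod k D, inferInstance,
    inferInstance, inferInstance, not_projective, fun n hn => ?_⟩
  obtain ⟨m, rfl⟩ := Nat.exists_eq_add_of_le' hn
  exact ⟨subsingleton_of_forall_eq 0 (ext_mod_mod H m),
    subsingleton_of_forall_eq 0 (ext_mod_tri H m)⟩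

end P195.Glue
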