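import Vale.Agent.P195.Ext2
import Vale.Agent.P195.DualInj
import Vale.Agent.P195.GlueMain

/-!
P195: from a finite-dimensional algebra with a module `V` having a simple socle, no extensions
into the algebra and the self-extensions of a three-dimensional spherical object, a
counterexample to the Auslander–Reiten conjecture.
-/

namespace Vale.Agent.P195

open CategoryTheory Abelian

variable {k A : Type} [Field k] [Ring A] [Algebra k A]

attribute [local instance] ModuleCat.moduleOfAlgebraModule ModuleCat.isScalarTower_of_algebra_moduleCat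

/-- A scalar, as an endomorphism. -/
def scalarEnd (V : ModuleCat.{0} A) (c : k) : V ⟶ V :=
  ModuleCat.ofHom
    { toFun := fun m => algebraMap k A c • m
      map_add' := fun _ _ => smul_add _ _ _
      map_smul' := fun a m => by
        rw [RingHom.id_apply, ← mul_smul, Algebra.commutes, mul_smul] }

theorem scalarEnd_apply (V : ModuleCat.{0} A) (c : k) (m : V) :
    (scalarEnd V c).hom m = c • m := algebraMap_smul A c m

theorem scalarEnd_mul (V : ModuleCat.{0} A) (c d : k) :
    scalarEnd V c ≫ scalarEnd V d = scalarEnd V (d * c) := by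
  refine ModuleCat.hom_ext (LinearMap.ext fun m => ?_)
  show (scalarEnd V d).hom ((scalarEnd V c).hom m) = _
  rw [scalarEnd_apply, scalarEnd_apply, scalarEnd_apply, mul_smul]

theorem scalarEnd_one (V : ModuleCat.{0} A) : scalarEnd V (1 : k) = 𝟙 V := by
  refine ModuleCat.hom_ext (LinearMap.ext fun m => ?_)
  rw [scalarEnd_apply, one_smul]
  rfl

theorem scalarEnd_zero (V : ModuleCat.{0} A) : scalarEnd V (0 : k) = 0 := by
  refine ModuleCat.hom_ext (LinearMap.ext fun m => ?_)
  rw [scalarEnd_apply, zero_smul]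
  rfl

/-- `Ext` into a finite free module vanishes when it vanishes into the ring. -/
theorem ext_free (V : ModuleCat.{0} A)
    (hA : ∀ n, Subsingleton (Ext V (ModuleCat.of A A) n)) (m n : ℕ) :
    Subsingleton (Ext V (ModuleCat.of A (Fin m → A)) n) := by
  induction m with
  | zero =>
    refine subsingleton_of_forall_eq 0 fun x => ?_
    have h : 𝟙 (ModuleCat.of A (Fin 0 → A)) = 0 := by
      refine ModuleCat.hom_ext (LinearMap.ext fun z => ?_)
      exact funext fun i => i.elim0
    rw [← x.comp_mk₀_id, h, Ext.mk₀_zero, Ext.comp_zero]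
  | succ m ih =>
    have := _root_.P195.ExtSeq.prod_cov (R := A) (X := V) (Y := A) (Z := Fin m → A) (n := n)
      (fun x => (hA n).elim _ _) (fun x => ih.elim _ _)
    refine subsingleton_of_forall_eq 0 fun x => ?_
    let e : ModuleCat.of A (Fin (m + 1) → A) ≅ ModuleCat.of A (A × (Fin m → A)) :=
      (Fin.consLinearEquiv A (fun _ : Fin (m + 1) => A)).symm.toModuleIso
    have hx := this (x.comp (Ext.mk₀ e.hom) (add_zero n))
    calc x = (x.comp (Ext.mk₀ e.hom) (add_zero n)).comp (Ext.mk₀ e.inv) (add_zero n) := by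
          rw [Ext.comp_assoc_of_second_deg_zero, Ext.mk₀_comp_mk₀, e.hom_inv_id, Ext.comp_mk₀_id]
      _ = 0 := by rw [hx, Ext.zero_comp]

/-- The counterexample to the conjecture from the module `V`. -/
theorem counterexample_of_spherical [Module.Finite k A] (V : ModuleCat.{0} A)
    (e : A) (he : e * e = e) (φ : V →ₗ[k] k) (hφ : ∀ m, φ (e • m) = φ m)
    (hsoc : ∀ m : V, m ≠ 0 → ∃ x : A, φ (x • m) ≠ 0)
    (v : V) (hv : φ v = 1) (hdim : ∀ m : V, e • m = φ m • e • v)
    (hA : ∀ n, Subsingleton (Ext V (ModuleCat.of A A) n))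
    (h1 : Subsingleton (Ext V V 1)) (h2 : Subsingleton (Ext V V 2))
    (h4 : ∀ n, 4 ≤ n → Subsingleton (Ext V V n))
    (hW : ∀ X : ModuleCat.{0} A, Subsingleton (Ext X V 4))
    (g : Ext V V 3) (hg : g ≠ 0)
    (hspan : ∀ x : Ext V V 3, ∃ c : k, (Ext.mk₀ (scalarEnd V c)).comp g (zero_add 3) = x) :
    ∃ (R : Type) (_ : Ring R) (_ : Algebra k R) (_ : Module.Finite k R)
      (M : Type) (_ : AddCommGroup M) (_ : Module R M) (_ : Module.Finite R M),
      ¬ Module.Projective R M ∧ ∀ n : ℕ, 1 ≤ n →
        Subsingleton (Abelian.Ext.{0} (ModuleCat.of R M) (ModuleCat.of R M) n) ∧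
        Subsingleton (Abelian.Ext.{0} (ModuleCat.of R M) (ModuleCat.of R R) n) := by
  -- the hull of `V`
  let I := dualIdeal k e
  let ι : V ⟶ I := toDualIdeal φ hφ
  have : Injective I := injective_dualIdeal he
  have : Mono ι := mono_toDualIdeal φ hφ hsoc
  have hι := (ModuleCat.mono_iff_injective ι).1 inferInstance
  have hVI : ∀ f : V ⟶ I, ∃ a : V ⟶ V, a ≫ ι = f :=
    exists_endo_comp_toDualIdeal φ hφ v hdim
  have hscal : ∀ f : V ⟶ I, ∃ c : k, scalarEnd V c ≫ ι = f := by
    intro f
    refine ⟨functional f v, hom_ext_dualIdeal fun m => ?_⟩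
    show functional ι ((scalarEnd V (functional f v)).hom m) = functional f m
    rw [scalarEnd_apply]
    show functional ι _ = _
    rw [functional_toDualIdeal, map_smul, ← functional_fixed f m, hdim m, map_smul,
      functional_fixed]
    simp [mul_comm]
  have hend : ∀ a : V ⟶ V, ∃ c : k, scalarEnd V c = a := by
    intro a
    obtain ⟨c, hc⟩ := hscal (a ≫ ι)
    exact ⟨c, (cancel_mono ι).1 hc⟩
  have hg0 : ∀ a : V ⟶ V, (Ext.mk₀ a).comp g (zero_add 3) = 0 → a = 0 := by
    intro a ha
    obtain ⟨c, rfl⟩ := hend a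
    rcases eq_or_ne c 0 with rfl | hc
    · exact scalarEnd_zero V
    · refine (hg ?_).elim
      calc g = (Ext.mk₀ (scalarEnd V c⁻¹ ≫ scalarEnd V c)).comp g (zero_add 3) := by
            rw [scalarEnd_mul, mul_inv_cancel₀ hc, scalarEnd_one, Ext.mk₀_id_comp]
        _ = 0 := by rw [← Ext.mk₀_comp_mk₀, Ext.comp_assoc _ _ _ (zero_add 0) (zero_add 3) (by omega), ha, Ext.comp_zero]
  obtain ⟨η, hη⟩ := exists_lift_of_ext_four ι (hW _) g
  -- a free module onto the hull
  obtain ⟨m, p, hp⟩ := Module.Finite.exists_fin' A (DE k e)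
  let P := ModuleCat.of A (Fin m → A)
  let π : P ⟶ I := ModuleCat.ofHom p
  have : Projective P := (IsProjective.iff_projective (R := A) (Fin m → A)).1 inferInstance
  have : Epi π := (ModuleCat.epi_iff_surjective π).2 hp
  obtain ⟨U, y, w, hU, hky, hry, hkw, hyw, hwy⟩ := exists_closing_module ι π hVI
    (ext_free V hA m) h1 h2 h4 g hg0 (fun x => (hspan x).imp' _ fun _ => id) η hη
  let D : _root_.P195.Glue.GlueData A (Fin m → A) U :=
    { y := y.hom
      w := w.hom
      yw := fun u => ConcreteCategory.congr_hom hwy u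
      wy := fun u => ConcreteCategory.congr_hom hyw u }
  -- the quotient is the hull
  let j : (_root_.P195.Glue.Uv D) ≃ₗ[A] I :=
    (Submodule.quotEquivOfEq _ _ (show LinearMap.range D.y = LinearMap.ker π.hom from hry)).trans
      (π.hom.quotKerEquivOfSurjective hp)
  have hj : ∀ u, j ((LinearMap.range D.y).mkQ u) = π.hom u := fun u => rfl
  have hVmap : (_root_.P195.Glue.V D).map (j : _root_.P195.Glue.Uv D →ₗ[A] I) =
      LinearMap.range ι.hom := by
    have : (j : _root_.P195.Glue.Uv D →ₗ[A] I) ∘ₗ (LinearMap.range D.y).mkQ = π.hom :=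
      LinearMap.ext hj
    rw [← Submodule.map_comp, this, show LinearMap.ker D.w = _ from hkw]
    exact Submodule.map_comap_eq_of_surjective hp _
  let s : (_root_.P195.Glue.V D) ≃ₗ[A] V :=
    ((j.submoduleMap (_root_.P195.Glue.V D)).trans (LinearEquiv.ofEq _ _ hVmap)).trans
      (LinearEquiv.ofInjective ι.hom hι).symm
  have hs : ∀ z, ι.hom (s z) = j z := fun z => by
    have := LinearEquiv.apply_symm_apply (LinearEquiv.ofInjective ι.hom hι)
      (((j.submoduleMap (_root_.P195.Glue.V D)).trans (LinearEquiv.ofEq _ _ hVmap)) z)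
    exact congrArg Subtype.val this
  have move : ∀ (X : Type) [AddCommGroup X] [Module A X] (n : ℕ),
      Subsingleton (Ext V (ModuleCat.of A X) n) →
        Subsingleton (Ext (ModuleCat.of A (_root_.P195.Glue.V D)) (ModuleCat.of A X) n) := by
    intro X _ _ n h
    refine subsingleton_of_forall_eq 0 fun x => ?_
    calc x = (Ext.mk₀ s.toModuleIso.hom).comp ((Ext.mk₀ s.toModuleIso.inv).comp x (zero_add n))
          (zero_add n) := by rw [Ext.mk₀_comp_mk₀_assoc, s.toModuleIso.hom_inv_id, Ext.mk₀_id_comp]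
      _ = 0 := by rw [h.elim ((Ext.mk₀ s.toModuleIso.inv).comp x (zero_add n)) 0, Ext.comp_zero]
  have hom0 : ∀ (X : Type) [AddCommGroup X] [Module A X],
      Subsingleton (Ext V (ModuleCat.of A X) 0) → ∀ f : _root_.P195.Glue.V D →ₗ[A] X, f = 0 := by
    intro X _ _ h f
    have := (move X 0 h).elim (Ext.mk₀ (ModuleCat.ofHom f)) (Ext.mk₀ 0)
    exact congrArg ModuleCat.Hom.hom ((Ext.mk₀_bijective _ _).1 this)
  have : Module.Finite A U := by
    have h1 : (LinearMap.range w.hom).FG := Module.Finite.iff_fg.1 inferInstance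
    have : IsNoetherianRing A := IsNoetherianRing.of_finite k A
    have : Module.Finite A (LinearMap.range y.hom) :=
      Module.Finite.iff_fg.2 (IsNoetherian.noetherian _)
    have : Module.Finite A (U ⧸ LinearMap.ker y.hom) :=
      Module.Finite.equiv (y.hom.quotKerEquivRange).symm
    have : Module.Finite A (LinearMap.ker y.hom) := Module.Finite.iff_fg.2 (hky ▸ h1)
    exact Module.Finite.of_submodule_quotient (LinearMap.ker y.hom)
  have : Module.Finite k U := Module.Finite.trans A U
  have H : _root_.P195.Glue.GlueHyp k D := by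
    refine ⟨fun u hu => hky.le hu, ?_, hom0 _ (ext_free V hA m 0), hom0 U (hU 0),
      hom0 A (hA 0), fun f => ?_, fun n x => (move _ (n + 1) (ext_free V hA m _)).elim _ _,
      fun n x => (move U (n + 1) (hU _)).elim _ _, fun n x => (move A (n + 1) (hA _)).elim _ _,
      fun n x => ?_⟩
    · obtain ⟨u, hu⟩ := hp (ι.hom v)
      refine ⟨u, LinearMap.mem_ker.1 (hkw.ge ⟨v, hu.symm⟩), fun hur => ?_⟩
      have h0 : ι.hom v = 0 := by rw [← hu]; exact LinearMap.mem_ker.1 (hry.le hur)
      have := hι (h0.trans (map_zero _).symm)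
      rw [this, map_zero] at hv
      exact zero_ne_one hv
    · obtain ⟨c, hc⟩ := hscal (ModuleCat.ofHom ((j : _root_.P195.Glue.Uv D →ₗ[A] I) ∘ₗ f ∘ₗ
        (s.symm : V →ₗ[A] _root_.P195.Glue.V D)))
      refine ⟨c, fun z => j.injective ?_⟩
      have := ConcreteCategory.congr_hom hc (s z)
      show j (f z) = j (c • (z : _root_.P195.Glue.Uv D))
      have hz : ι.hom ((scalarEnd V c).hom (s z)) = j (f (s.symm (s z))) := this
      rw [LinearEquiv.symm_apply_apply] at hz
      rw [← hz, show (scalarEnd V c).hom (s z) = algebraMap k A c • s z from rfl, map_smul, hs,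
        ← map_smul, algebraMap_smul]
    · let jj := j.toModuleIso
      calc x = (x.comp (Ext.mk₀ jj.hom) (add_zero (n + 1))).comp (Ext.mk₀ jj.inv)
            (add_zero (n + 1)) := by
            rw [Ext.comp_assoc_of_second_deg_zero, Ext.mk₀_comp_mk₀, jj.hom_inv_id, Ext.comp_mk₀_id]
        _ = 0 := by
            rw [(move I (n + 1) (Ext.subsingleton_of_injective V I n)).elim
              (x.comp (Ext.mk₀ jj.hom) (add_zero (n + 1))) 0, Ext.zero_comp]
  exact _root_.P195.Glue.counterexample H

end Vale.Agent.P195
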