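import Vale.Agent.P195.Model.Cone
import Vale.Agent.P195.Model.EnvelopeMaps
import Vale.Agent.P195.Model.MapsEq
import Vale.Agent.P195.Model.Res
import Vale.Agent.P195.Exact.Low
import Vale.Agent.P195.Exact.TopMaps
import Vale.Agent.P195.SelfExt.Inputs
import Vale.Agent.P195.Orbit.Trace
import Vale.Agent.P195.Orbit.Linear
import Vale.Agent.P195.Orbit.Main

/-!
P195: the model algebra in place of the abstract data of `Orbit.counterexample_of_orbit`, and the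
counterexample to the Auslander–Reiten conjecture.
-/

noncomputable section

namespace Vale.Agent.P195.Model

open CategoryTheory Abelian

attribute [local instance] ModuleCat.moduleOfAlgebraModule
  ModuleCat.isScalarTower_of_algebra_moduleCat

/-- The socle functional for the scalar action of the category. -/
def socHom : @LinearMap ℂ ℂ _ _ (RingHom.id ℂ) ↑(V 0) ℂ (V 0).isAddCommGroup.toAddCommMonoid _
    (V 0).moduleOfAlgebraModule _ :=
  @LinearMap.mk _ _ _ _ _ _ _ (V 0).isAddCommGroup.toAddCommMonoid _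
    (V 0).moduleOfAlgebraModule _ ⟨fun f => soc f, soc.map_add⟩ fun c f => by
    show soc (algebraMap ℂ A c • (f : FL 0)) = c * soc f
    rw [algebraMap_smul, map_smul, smul_eq_mul]

/-- The counterexample from resolutions and cochain facts of the model. -/
theorem counterexample_of_data (R : ∀ j, Orbit.Res3 (I j))
    (L : ∀ j, (R j).Lift (R (j + 1)) (stepHom j))
    (lowA : ∀ j, (R j).LowExact (ModuleCat.of A A))
    (kerA : ∀ j, ∀ φ : (R (j + 1)).Q₃ ⟶ ModuleCat.of A A,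
      (∃ c, (R (j + 2)).d₃ ≫ c = (L (j + 1)).m₃.τ₁ ≫ φ) →
      ∃ ψ : (R j).Q₃ ⟶ ModuleCat.of A A, ∃ c, (R (j + 1)).d₃ ≫ c = φ - (L j).m₃.τ₁ ≫ ψ)
    (firstA : ∀ φ : (R 0).Q₃ ⟶ ModuleCat.of A A,
      (∃ c, (R 1).d₃ ≫ c = (L 0).m₃.τ₁ ≫ φ) → ∃ c, (R 0).d₃ ≫ c = φ)
    (lowV : ∀ j, (R (j + 1)).LowExact (V 0))
    (topV : ∀ j, ∀ φ : (R (j + 1)).Q₃ ⟶ V 0, ∃ c, (R (j + 1)).d₃ ≫ c = φ)
    (deg₁ : ∀ b : (R 0).Q₁ ⟶ V 0, (R 0).d₂ ≫ b = 0 → ∃ a, (R 0).d₁ ≫ a = b)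
    (deg₂ : ∀ c : (R 0).Q₂ ⟶ V 0, (R 0).d₃ ≫ c = 0 → ∃ b, (R 0).d₂ ≫ b = c)
    (φ₀ : (R 0).Q₃ ⟶ V 0) (hφ₀ : ¬ ∃ c, (R 0).d₃ ≫ c = φ₀)
    (hspan : ∀ φ : (R 0).Q₃ ⟶ V 0,
      ∃ a : ℂ, ∃ c, (R 0).d₃ ≫ c = φ - φ₀ ≫ scalarEnd (V 0) a)
    (hW : ∀ X : ModuleCat.{0} A, Subsingleton (Ext X (V 0) 4)) :
    ∃ (R : Type) (_ : Ring R) (_ : Algebra ℂ R), Module.Finite ℂ R ∧
      ∃ M : ModuleCat.{0} R, Module.Finite R M ∧ ¬ Module.Projective R M ∧
        ∀ n : ℕ, 1 ≤ n → Subsingleton (Abelian.Ext M M n) ∧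
          Subsingleton (Abelian.Ext M (ModuleCat.of R R) n) := by
  refine Orbit.counterexample_of_orbit (f := inclHom) (g := projHom) incl_proj cone_shortExact R L
    lowA kerA firstA lowV topV deg₁ deg₂ φ₀ hφ₀ hspan (eV 0) (eV_idem 0) socHom
    (fun m => ?_) (fun m hm => ?_) socVec ?_ (fun m => ?_) hW
  · exact soc_eV m
  · exact soc_separates m hm
  · exact soc_socVec
  · show eV 0 • (m : FL 0) = algebraMap ℂ A (soc m) • eV 0 • socVec
    rw [algebraMap_smul]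
    exact eV_zero_smul m

/-- The resolutions have exact cochains into `A` below the top degree. -/
theorem lowA_R (j : ℕ) : (R j).LowExact (ModuleCat.of A A) :=
  (seq j).lowExact (fun a ha => Exact.Low.low_zero a ha) (fun b hb => Exact.Low.low_one b hb)
    (fun c hc => Exact.Low.low_two c hc)

/-- The resolutions of positive degree have exact cochains into `V 0` below the top degree. -/
theorem lowV_R (j : ℕ) : (R (j + 1)).LowExact (V 0) :=
  (seq (j + 1)).lowExact (fun a ha => SelfExt.low0 j a ha) (fun b hb => SelfExt.low1 j b hb)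
    (fun c hc => SelfExt.low2 j c hc)

/-- The top cochains of positive degree into `V 0` are coboundaries. -/
theorem topV_R (j : ℕ) (φ : (R (j + 1)).Q₃ ⟶ V 0) : ∃ c, (R (j + 1)).d₃ ≫ c = φ :=
  ((seq (j + 1)).exists_d₃_iff φ).mpr (SelfExt.top j φ.hom)

theorem bC_smul {j : ℕ} (a : ℂ) (φ : Q3 j →ₗ[A] A) : Exact.Top.bC (a • φ) = a • Exact.Top.bC φ :=
  LinearMap.ext fun w => by simp [Exact.Top.bC_apply, homEquiv_apply]

theorem nC_smul {j : ℕ} (a : ℂ) (φ : Q3 j →ₗ[A] A) : Exact.Top.nC (a • φ) = a • Exact.Top.nC φ :=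
  LinearMap.ext fun w => by simp [Exact.Top.nC_apply, homEquiv_apply]

theorem PsiB_smul {j : ℕ} (a : ℂ) (φ : Q3 j →ₗ[A] A) :
    Exact.Top.PsiB j (a • φ) = a • Exact.Top.PsiB j φ :=
  funext fun r => LinearMap.ext fun v => by
    rw [Pi.smul_apply, LinearMap.smul_apply, Exact.Top.PsiB_apply, Exact.Top.PsiB_apply, bC_smul,
      map_smul]
    rfl

theorem PsiN_smul {j : ℕ} (a : ℂ) (φ : Q3 (j + 1) →ₗ[A] A) :
    Exact.Top.PsiN j (a • φ) = a • Exact.Top.PsiN j φ :=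
  funext fun r => LinearMap.ext fun v => by
    rw [Pi.smul_apply, LinearMap.smul_apply, Exact.Top.PsiN_apply, Exact.Top.PsiN_apply, nC_smul,
      map_smul]
    rfl

/-- The two top conditions for cochains into `A`. -/
theorem top_R :
    (∀ j, ∀ φ : (R (j + 1)).Q₃ ⟶ ModuleCat.of A A,
      (∃ c, (R (j + 2)).d₃ ≫ c = (L (j + 1)).m₃.τ₁ ≫ φ) →
      ∃ ψ : (R j).Q₃ ⟶ ModuleCat.of A A, ∃ c, (R (j + 1)).d₃ ≫ c = φ - (L j).m₃.τ₁ ≫ ψ) ∧
    (∀ φ : (R 0).Q₃ ⟶ ModuleCat.of A A, (∃ c, (R 1).d₃ ≫ c = (L 0).m₃.τ₁ ≫ φ) →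
      ∃ c, (R 0).d₃ ≫ c = φ) := by
  let P : ∀ j, ((R j).Q₃ ⟶ ModuleCat.of A A) →+ (Fin 7 → Module.Dual ℂ (Lp j)) := fun j =>
    AddMonoidHom.mk' (fun φ => Exact.Top.PsiB j φ.hom) fun a b => map_add _ a.hom b.hom
  let N : ∀ j, ((R (j + 1)).Q₃ ⟶ ModuleCat.of A A) →+ (Fin 7 → Module.Dual ℂ (Lp j)) := fun j =>
    AddMonoidHom.mk' (fun φ => Exact.Top.PsiN j φ.hom) fun a b => map_add _ a.hom b.hom
  refine Orbit.top_of_trace R L P N
    (fun j => nu j * (((j : ℂ) + 1) * ((j : ℂ) + 2) ^ 2))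
    (fun j => mul_ne_zero (inv_ne_zero (pow_ne_zero 3 (Nat.cast_add_one_ne_zero j)))
      (Exact.Top.shift_const_ne_zero j)) (fun j μ => ?_)
    (fun φ => ((seq 0).exists_d₃_iff φ).trans (Exact.Top.range_d3_zero φ.hom))
    (fun j φ => ((seq (j + 1)).exists_d₃_iff φ).trans (Exact.Top.range_d3_succ φ.hom))
    (fun j ψ => ?_) (fun j ψ => ?_)
  · obtain ⟨φ, hφ⟩ := Exact.Top.PsiB_surjective j μ
    exact ⟨ModuleCat.ofHom φ, hφ⟩
  · show Exact.Top.PsiB (j + 1) ((L j).m₃.τ₁ ≫ ψ).hom = 0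
    rw [L_top]
    let ψ' : Q3 j →ₗ[A] A := ψ.hom
    show Exact.Top.PsiB (j + 1) (ψ'.comp (nu j • m3 j)) = 0
    rw [LinearMap.comp_smul, PsiB_smul, Exact.Top.PsiB_m3, smul_zero]
  · show Exact.Top.PsiN j ((L j).m₃.τ₁ ≫ ψ).hom = _
    rw [L_top]
    let ψ' : Q3 j →ₗ[A] A := ψ.hom
    show Exact.Top.PsiN j (ψ'.comp (nu j • m3 j)) = _
    rw [LinearMap.comp_smul, PsiN_smul, Exact.Top.PsiN_m3, smul_smul]
    rfl

/-- Degree four and above: no extensions into `V 0`. -/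
theorem hW_V0 (X : ModuleCat.{0} A) : Subsingleton (Ext X (V 0) 4) :=
  hW_of_Q (d1_d2 0) (d2_d3 0) (fun φ h => Exact.Low.low_zero φ h)
    (fun φ h => Exact.Low.low_one φ h) (fun φ h => Exact.Low.low_two φ h)
    Exact.Top.range_d3_zero_iff_coeff X 4 le_rfl

/-- A counterexample to the Auslander–Reiten conjecture. -/
theorem exists_counterexample :
    ∃ (R : Type) (_ : Ring R) (_ : Algebra ℂ R), Module.Finite ℂ R ∧
      ∃ M : ModuleCat.{0} R, Module.Finite R M ∧ ¬ Module.Projective R M ∧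
        ∀ n : ℕ, 1 ≤ n → Subsingleton (Abelian.Ext M M n) ∧
          Subsingleton (Abelian.Ext M (ModuleCat.of R R) n) := by
  refine counterexample_of_data R L lowA_R top_R.1 top_R.2 lowV_R topV_R (fun b hb => ?_)
    (fun c _ => ?_) (ModuleCat.ofHom SelfExt.phi0) (fun h => ?_) (fun φ => ?_) hW_V0
  · refine ⟨0, ?_⟩
    change (seq 0).res.d₂ ≫ b = 0 at hb
    rw [(seq 0).res_d₂] at hb
    rw [show b = 0 from ModuleCat.hom_ext
      (SelfExt.deg1_zero b.hom (congrArg ModuleCat.Hom.hom hb)), Limits.comp_zero]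
  · obtain ⟨b, hb⟩ := SelfExt.deg2_zero c.hom
    refine ⟨ModuleCat.ofHom b, ?_⟩
    change (seq 0).res.d₂ ≫ _ = _
    rw [(seq 0).res_d₂]
    exact ModuleCat.hom_ext hb
  · exact SelfExt.phi0_not_coboundary (((seq 0).exists_d₃_iff _).mp h)
  · obtain ⟨a, ha⟩ := SelfExt.phi0_span φ.hom
    refine ⟨a, 0, ?_⟩
    rw [Limits.comp_zero, eq_comm, sub_eq_zero]
    refine ModuleCat.hom_ext (LinearMap.ext fun z => ?_)
    refine (ha z).trans ?_
    show a • SelfExt.phi0 z = algebraMap ℂ A a • SelfExt.phi0 z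
    rw [algebraMap_smul]

end Vale.Agent.P195.Model
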