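import Mathlib.Algebra.Algebra.Basic
import Mathlib.Algebra.Module.Projective
import Mathlib.LinearAlgebra.Prod
import Mathlib.LinearAlgebra.Pi
import Mathlib.LinearAlgebra.FiniteDimensional.Basic
import Mathlib.RingTheory.Finiteness.Basic
import Mathlib.RingTheory.Finiteness.Prod
import Mathlib.Tactic.Abel
import Mathlib.Tactic.Module
import Mathlib.Tactic.Ring
import Mathlib.Tactic.NoncommRing

/-!
The triangular algebra `[[R', 0], [U1 + U2, A]]` where `R'` is the four-dimensional algebra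
on two vertices with arrows `a`, `b` and relations `ab = ba = 0`.
-/

namespace P195.Glue

/-- Two maps `y : U2 → U1`, `w : U1 → U2` which compose to zero in both orders. -/
structure GlueData (A U1 U2 : Type) [Ring A] [AddCommGroup U1] [Module A U1] [AddCommGroup U2]
    [Module A U2] where
  /-- The map used for the arrow `a`. -/
  y : U2 →ₗ[A] U1
  /-- The map used for the arrow `b`. -/
  w : U1 →ₗ[A] U2
  yw : ∀ u, y (w u) = 0
  wy : ∀ u, w (y u) = 0

variable {k A U1 U2 : Type} [Field k] [Ring A] [Algebra k A]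
  [AddCommGroup U1] [Module A U1] [Module k U1] [IsScalarTower k A U1]
  [AddCommGroup U2] [Module A U2] [Module k U2] [IsScalarTower k A U2]

/-- Underlying type of the triangular algebra. -/
@[ext]
structure Tri (k : Type) {A U1 U2 : Type} [Ring A] [AddCommGroup U1] [Module A U1]
    [AddCommGroup U2] [Module A U2] (D : GlueData A U1 U2) where
  c1 : k
  c2 : k
  a : k
  b : k
  u1 : U1
  u2 : U2
  z : A

variable {D : GlueData A U1 U2}

namespace Tri

set_option linter.unusedSectionVars false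
set_option linter.unusedSimpArgs false

instance : Zero (Tri k D) := ⟨⟨0, 0, 0, 0, 0, 0, 0⟩⟩
instance : One (Tri k D) := ⟨⟨1, 1, 0, 0, 0, 0, 1⟩⟩
instance : Add (Tri k D) := ⟨fun x y => ⟨x.c1 + y.c1, x.c2 + y.c2, x.a + y.a, x.b + y.b,
  x.u1 + y.u1, x.u2 + y.u2, x.z + y.z⟩⟩
instance : Neg (Tri k D) := ⟨fun x => ⟨-x.c1, -x.c2, -x.a, -x.b, -x.u1, -x.u2, -x.z⟩⟩
instance : SMul k (Tri k D) := ⟨fun c x => ⟨c * x.c1, c * x.c2, c * x.a, c * x.b,
  c • x.u1, c • x.u2, c • x.z⟩⟩
instance : Mul (Tri k D) := ⟨fun x y => ⟨x.c1 * y.c1, x.c2 * y.c2,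
  x.a * y.c1 + x.c2 * y.a, x.b * y.c2 + x.c1 * y.b,
  x.z • y.u1 + y.c1 • x.u1 + y.a • D.y x.u2,
  x.z • y.u2 + y.c2 • x.u2 + y.b • D.w x.u1,
  x.z * y.z⟩⟩

@[simp] lemma zero_c1 : (0 : Tri k D).c1 = 0 := rfl
@[simp] lemma zero_c2 : (0 : Tri k D).c2 = 0 := rfl
@[simp] lemma zero_a : (0 : Tri k D).a = 0 := rfl
@[simp] lemma zero_b : (0 : Tri k D).b = 0 := rfl
@[simp] lemma zero_u1 : (0 : Tri k D).u1 = 0 := rfl
@[simp] lemma zero_u2 : (0 : Tri k D).u2 = 0 := rfl
@[simp] lemma zero_z : (0 : Tri k D).z = 0 := rfl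
@[simp] lemma one_c1 : (1 : Tri k D).c1 = 1 := rfl
@[simp] lemma one_c2 : (1 : Tri k D).c2 = 1 := rfl
@[simp] lemma one_a : (1 : Tri k D).a = 0 := rfl
@[simp] lemma one_b : (1 : Tri k D).b = 0 := rfl
@[simp] lemma one_u1 : (1 : Tri k D).u1 = 0 := rfl
@[simp] lemma one_u2 : (1 : Tri k D).u2 = 0 := rfl
@[simp] lemma one_z : (1 : Tri k D).z = 1 := rfl
@[simp] lemma add_c1 (x y : Tri k D) : (x + y).c1 = x.c1 + y.c1 := rfl
@[simp] lemma add_c2 (x y : Tri k D) : (x + y).c2 = x.c2 + y.c2 := rfl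
@[simp] lemma add_a (x y : Tri k D) : (x + y).a = x.a + y.a := rfl
@[simp] lemma add_b (x y : Tri k D) : (x + y).b = x.b + y.b := rfl
@[simp] lemma add_u1 (x y : Tri k D) : (x + y).u1 = x.u1 + y.u1 := rfl
@[simp] lemma add_u2 (x y : Tri k D) : (x + y).u2 = x.u2 + y.u2 := rfl
@[simp] lemma add_z (x y : Tri k D) : (x + y).z = x.z + y.z := rfl
@[simp] lemma neg_c1 (x : Tri k D) : (-x).c1 = -x.c1 := rfl
@[simp] lemma neg_c2 (x : Tri k D) : (-x).c2 = -x.c2 := rfl
@[simp] lemma neg_a (x : Tri k D) : (-x).a = -x.a := rfl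
@[simp] lemma neg_b (x : Tri k D) : (-x).b = -x.b := rfl
@[simp] lemma neg_u1 (x : Tri k D) : (-x).u1 = -x.u1 := rfl
@[simp] lemma neg_u2 (x : Tri k D) : (-x).u2 = -x.u2 := rfl
@[simp] lemma neg_z (x : Tri k D) : (-x).z = -x.z := rfl

@[simp] lemma smul_c1 (c : k) (x : Tri k D) : (c • x).c1 = c * x.c1 := rfl
@[simp] lemma smul_c2 (c : k) (x : Tri k D) : (c • x).c2 = c * x.c2 := rfl
@[simp] lemma smul_a (c : k) (x : Tri k D) : (c • x).a = c * x.a := rfl
@[simp] lemma smul_b (c : k) (x : Tri k D) : (c • x).b = c * x.b := rfl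
@[simp] lemma smul_u1 (c : k) (x : Tri k D) : (c • x).u1 = c • x.u1 := rfl
@[simp] lemma smul_u2 (c : k) (x : Tri k D) : (c • x).u2 = c • x.u2 := rfl
@[simp] lemma smul_z (c : k) (x : Tri k D) : (c • x).z = c • x.z := rfl
@[simp] lemma mul_c1 (x y : Tri k D) : (x * y).c1 = x.c1 * y.c1 := rfl
@[simp] lemma mul_c2 (x y : Tri k D) : (x * y).c2 = x.c2 * y.c2 := rfl
@[simp] lemma mul_a (x y : Tri k D) : (x * y).a = x.a * y.c1 + x.c2 * y.a := rfl
@[simp] lemma mul_b (x y : Tri k D) : (x * y).b = x.b * y.c2 + x.c1 * y.b := rfl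
@[simp] lemma mul_u1 (x y : Tri k D) :
    (x * y).u1 = x.z • y.u1 + y.c1 • x.u1 + y.a • D.y x.u2 := rfl
@[simp] lemma mul_u2 (x y : Tri k D) :
    (x * y).u2 = x.z • y.u2 + y.c2 • x.u2 + y.b • D.w x.u1 := rfl
@[simp] lemma mul_z (x y : Tri k D) : (x * y).z = x.z * y.z := rfl

instance : AddCommGroup (Tri k D) where
  add_assoc x y z := by ext <;> simp [add_assoc]
  zero_add x := by ext <;> simp
  add_zero x := by ext <;> simp
  neg_add_cancel x := by ext <;> simp
  add_comm x y := by ext <;> simp [add_comm]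
  nsmul := nsmulRec
  zsmul := zsmulRec

instance : Ring (Tri k D) where
  zero_mul x := by ext <;> simp
  mul_zero x := by ext <;> simp
  left_distrib x y z := by
    ext <;> simp [mul_add, add_smul, smul_add] <;> first | ring1 | abel
  right_distrib x y z := by
    ext <;> simp [add_mul, add_smul, smul_add] <;> first | ring1 | abel
  mul_assoc x y z := by
    ext <;> simp [mul_assoc, mul_add, add_mul, add_smul, smul_add, smul_smul,
      smul_comm (_ : k) (_ : A), LinearMap.map_smul_of_tower, D.yw, D.wy, mul_comm] <;>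
      first | ring1 | abel
  one_mul x := by ext <;> simp
  mul_one x := by ext <;> simp
  neg_add_cancel x := by ext <;> simp
  nsmul := nsmulRec
  zsmul := zsmulRec

instance : Module k (Tri k D) where
  one_smul x := by ext <;> simp
  mul_smul c d x := by ext <;> simp [mul_assoc, mul_smul]
  smul_zero c := by ext <;> simp
  zero_smul x := by ext <;> simp
  smul_add c x y := by ext <;> simp [mul_add, smul_add]
  add_smul c d x := by ext <;> simp [add_mul, add_smul]

instance : Algebra k (Tri k D) :=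
  Algebra.ofModule
    (fun c x y => by
      ext <;> simp [mul_add, smul_add, smul_smul, smul_comm (_ : k) (_ : A),
        LinearMap.map_smul_of_tower, mul_comm] <;> first | ring1 | abel)
    (fun c x y => by
      ext <;> simp [mul_add, smul_add, smul_smul, smul_comm (_ : k) (_ : A),
        LinearMap.map_smul_of_tower, mul_comm] <;> first | ring1 | abel)

/-- Coordinates of the algebra, as a linear equivalence. -/
def equivProd : Tri k D ≃ₗ[k] (k × k × k × k) × U1 × U2 × A where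
  toFun x := ((x.c1, x.c2, x.a, x.b), x.u1, x.u2, x.z)
  invFun p := ⟨p.1.1, p.1.2.1, p.1.2.2.1, p.1.2.2.2, p.2.1, p.2.2.1, p.2.2.2⟩
  left_inv x := rfl
  right_inv p := rfl
  map_add' x y := rfl
  map_smul' c x := rfl

instance [Module.Finite k A] [Module.Finite k U1] [Module.Finite k U2] :
    Module.Finite k (Tri k D) :=
  Module.Finite.equiv equivProd.symm

end Tri

end P195.Glue
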