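import Vale.Agent.P195.ExtSeq
import Vale.Agent.P195.Tri

/-!
Gluing lemma: from a module `V = ker w / range y` with no maps and no extensions into `U1`, `U2`
and `A`, an algebra with a non-projective module `M` with
`Ext^n(M, M) = Ext^n(M, Tri) = 0` for all `n ≥ 1`.
-/

namespace P195.Glue

open P195.ExtSeq CategoryTheory

set_option linter.unusedSectionVars false
set_option linter.unusedSimpArgs false

variable {k A U1 U2 : Type} [Field k] [Ring A] [Algebra k A]
  [AddCommGroup U1] [Module A U1] [Module k U1] [IsScalarTower k A U1]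
  [AddCommGroup U2] [Module A U2] [Module k U2] [IsScalarTower k A U2]

variable (D : GlueData A U1 U2)

/-- The quotient `U1 / range y`. -/
abbrev Uv : Type := U1 ⧸ LinearMap.range D.y

/-- The module `V = ker w / range y`, inside `U1 / range y`. -/
abbrev V : Submodule A (Uv D) := (LinearMap.ker D.w).map (LinearMap.range D.y).mkQ

/-- The hypotheses of the gluing lemma. -/
structure GlueHyp (k : Type) [Field k] [Algebra k A] [Module k U1] [IsScalarTower k A U1]
    (D : GlueData A U1 U2) : Prop where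
  ker_y : ∀ u, D.y u = 0 → ∃ v, D.w v = u
  nontriv : ∃ u, D.w u = 0 ∧ u ∉ LinearMap.range D.y
  hom_U1 : ∀ f : V D →ₗ[A] U1, f = 0
  hom_U2 : ∀ f : V D →ₗ[A] U2, f = 0
  hom_A : ∀ f : V D →ₗ[A] A, f = 0
  hom_Uv : ∀ f : V D →ₗ[A] Uv D, ∃ c : k, ∀ v, f v = c • (v : Uv D)
  ext_U1 : ∀ (n : ℕ) (x : E (R := A) (V D) U1 (n + 1)), x = 0
  ext_U2 : ∀ (n : ℕ) (x : E (R := A) (V D) U2 (n + 1)), x = 0
  ext_A : ∀ (n : ℕ) (x : E (R := A) (V D) A (n + 1)), x = 0
  ext_Uv : ∀ (n : ℕ) (x : E (R := A) (V D) (Uv D) (n + 1)), x = 0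

/-! ### Restriction along the projection to `A` -/

/-- The projection of the triangular algebra onto `A`. -/
def proj : Tri k D →+* A where
  toFun x := x.z
  map_one' := rfl
  map_mul' _ _ := rfl
  map_zero' := rfl
  map_add' _ _ := rfl

/-- An `A`-module, seen as a module over the triangular algebra. -/
def Res (k : Type) [Field k] {A U1 U2 : Type} [Ring A] [AddCommGroup U1] [Module A U1]
    [AddCommGroup U2] [Module A U2] (_D : GlueData A U1 U2) (N : Type) : Type := N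

instance {N : Type} [h : AddCommGroup N] : AddCommGroup (Res k D N) := h

instance {N : Type} [AddCommGroup N] [h : Module A N] : Module (Tri k D) (Res k D N) :=
  Module.compHom N (proj (k := k) D)

variable {D}

lemma res_smul {N : Type} [AddCommGroup N] [Module A N] (r : Tri k D) (v : N) :
    (r • (show Res k D N from v) : Res k D N) = (r.z • v : N) := rfl

/-- Functoriality of restriction. -/
def resMap {N N' : Type} [AddCommGroup N] [Module A N] [AddCommGroup N'] [Module A N']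
    (f : N →ₗ[A] N') : Res k D N →ₗ[Tri k D] Res k D N' where
  toFun v := f v
  map_add' v v' := f.map_add v v'
  map_smul' r v := f.map_smul r.z v

/-- The idempotent of the `A`-block. -/
def eA : Tri k D := ⟨0, 0, 0, 0, 0, 0, 1⟩

lemma eA_smul {N : Type} [AddCommGroup N] [Module A N] (v : Res k D N) :
    (eA : Tri k D) • v = v := one_smul A (show N from v)

instance res_finsupp_projective (ι : Type) : Module.Projective (Tri k D) (Res k D (ι →₀ A)) := by
  let i : Res k D (ι →₀ A) →ₗ[Tri k D] (ι →₀ Tri k D) :=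
    { toFun := fun v => Finsupp.mapRange (fun t => (⟨0, 0, 0, 0, 0, 0, t⟩ : Tri k D)) rfl
        (show ι →₀ A from v)
      map_add' := fun v v' => Finsupp.mapRange_add (fun s t => by ext <;> simp) _ _
      map_smul' := fun r v => by
        refine Finsupp.ext fun a => ?_
        show (⟨0, 0, 0, 0, 0, 0, r.z * (show ι →₀ A from v) a⟩ : Tri k D) =
          r * ⟨0, 0, 0, 0, 0, 0, (show ι →₀ A from v) a⟩
        ext <;> simp }
  let p : (ι →₀ Tri k D) →ₗ[Tri k D] Res k D (ι →₀ A) :=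
    { toFun := fun v => (Finsupp.mapRange Tri.z rfl v : ι →₀ A)
      map_add' := fun v v' => Finsupp.mapRange_add (fun _ _ => rfl) v v'
      map_smul' := fun r v => by
        refine Finsupp.ext fun a => ?_
        rfl }
  refine Module.Projective.of_split i p (LinearMap.ext fun v => ?_)
  exact Finsupp.ext fun a => rfl

section ChangeOfRings

variable {X Y : Type} [AddCommGroup X] [Module (Tri k D) X] [AddCommGroup Y] [Module A Y]

/-- Maps out of a restricted module land in the `A`-block. -/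
lemma exists_toA (j : Res k D Y →ₗ[Tri k D] X) (hj : Function.Injective j)
    (hfix : ∀ x : X, (eA : Tri k D) • x = x → x ∈ LinearMap.range j)
    {N : Type} [AddCommGroup N] [Module A N] (u : Res k D N →ₗ[Tri k D] X) :
    ∃ u' : N →ₗ[A] Y, ∀ v : N, j (u' v) = u v := by
  have h : ∀ v : N, ∃ y : Y, j y = u v := fun v =>
    hfix _ ((u.map_smul _ v).symm.trans (congrArg u (eA_smul (D := D) v)))
  choose F hF using h
  refine ⟨{ toFun := F, map_add' := fun v v' => hj ?_, map_smul' := fun t v => hj ?_ }, hF⟩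
  · refine (hF _).trans ?_
    refine (u.map_add v v').trans ?_
    rw [← hF, ← hF]
    exact (j.map_add _ _).symm
  · refine (hF _).trans ?_
    refine (u.map_smul (⟨0, 0, 0, 0, 0, 0, t⟩ : Tri k D) v).trans ?_
    rw [← hF v]
    exact (j.map_smul (⟨0, 0, 0, 0, 0, 0, t⟩ : Tri k D) _).symm

/-- The kernel of the standard free cover. -/
noncomputable abbrev syz (A N : Type) [Ring A] [AddCommGroup N] [Module A N] : Submodule A (N →₀ A) :=
  LinearMap.ker (Finsupp.linearCombination A (id : N → N))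

lemma exact_syz (N : Type) [AddCommGroup N] [Module A N] :
    Function.Exact (syz A N).subtype (Finsupp.linearCombination A (id : N → N)) :=
  LinearMap.exact_subtype_ker_map _

/-- Change of rings for `Ext`. -/
theorem ext_res (j : Res k D Y →ₗ[Tri k D] X) (hj : Function.Injective j)
    (hfix : ∀ x : X, (eA : Tri k D) • x = x → x ∈ LinearMap.range j) (n : ℕ) :
    ∀ (N : Type) [AddCommGroup N] [Module A N],
      (∀ x : E (R := A) N Y (n + 1), x = 0) →
      ∀ x : E (R := Tri k D) (Res k D N) X (n + 1), x = 0 := by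
  induction n with
  | zero =>
    intro N _ _ h
    let f : Res k D (syz A N) →ₗ[Tri k D] Res k D (N →₀ A) :=
      resMap (N := syz A N) (N' := N →₀ A) (syz A N).subtype
    let g : Res k D (N →₀ A) →ₗ[Tri k D] Res k D N :=
      resMap (N := N →₀ A) (N' := N) (Finsupp.linearCombination A (id : N → N))
    refine ext_one (f := f) (g := g) (fun _ _ e => Subtype.val_injective e)
      (Finsupp.linearCombination_id_surjective A N) (exact_syz N) fun u => ?_
    obtain ⟨u', hu'⟩ := exists_toA (N := syz A N) j hj hfix u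
    obtain ⟨v', hv'⟩ := extends_of_ext_one (R := A) (L := syz A N) (P := N →₀ A) (N := N) (X := Y)
      (f := (syz A N).subtype) (g := Finsupp.linearCombination A (id : N → N))
      (fun _ _ e => Subtype.val_injective e)
      (Finsupp.linearCombination_id_surjective A N) (exact_syz N) h u'
    refine ⟨j.comp (resMap v'), LinearMap.ext fun v => ?_⟩
    exact (congrArg j (LinearMap.congr_fun hv' v)).trans (hu' v)
  | succ n ih =>
    intro N _ _ h
    let f : Res k D (syz A N) →ₗ[Tri k D] Res k D (N →₀ A) :=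
      resMap (N := syz A N) (N' := N →₀ A) (syz A N).subtype
    let g : Res k D (N →₀ A) →ₗ[Tri k D] Res k D N :=
      resMap (N := N →₀ A) (N' := N) (Finsupp.linearCombination A (id : N → N))
    exact shift (f := f) (g := g) (fun _ _ e => Subtype.val_injective e)
      (Finsupp.linearCombination_id_surjective A N) (exact_syz N)
      (ih (syz A N) (unshift (R := A) (L := syz A N) (P := N →₀ A) (N := N) (X := Y)
        (f := (syz A N).subtype) (g := Finsupp.linearCombination A (id : N → N))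
        (fun _ _ e => Subtype.val_injective e)
        (Finsupp.linearCombination_id_surjective A N) (exact_syz N) h))

end ChangeOfRings

/-! ### The left ideals -/

variable (k D)

/-- The left ideal `Tri e1`. -/
def P1 : Submodule (Tri k D) (Tri k D) where
  carrier := {x | x.c2 = 0 ∧ x.b = 0 ∧ x.u2 = 0 ∧ x.z = 0}
  zero_mem' := ⟨rfl, rfl, rfl, rfl⟩
  add_mem' := by
    rintro x y ⟨h1, h2, h3, h4⟩ ⟨g1, g2, g3, g4⟩
    simp [h1, h2, h3, h4, g1, g2, g3, g4]
  smul_mem' := by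
    rintro r x ⟨h1, h2, h3, h4⟩
    simp [smul_eq_mul, h1, h2, h3, h4]

/-- The left ideal `Tri e2`. -/
def P2 : Submodule (Tri k D) (Tri k D) where
  carrier := {x | x.c1 = 0 ∧ x.a = 0 ∧ x.u1 = 0 ∧ x.z = 0}
  zero_mem' := ⟨rfl, rfl, rfl, rfl⟩
  add_mem' := by
    rintro x y ⟨h1, h2, h3, h4⟩ ⟨g1, g2, g3, g4⟩
    simp [h1, h2, h3, h4, g1, g2, g3, g4]
  smul_mem' := by
    rintro r x ⟨h1, h2, h3, h4⟩
    simp [smul_eq_mul, h1, h2, h3, h4]

/-- The left ideal `Tri a`. -/
def Ba : Submodule (Tri k D) (Tri k D) where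
  carrier := {x | x.c1 = 0 ∧ x.c2 = 0 ∧ x.b = 0 ∧ x.u2 = 0 ∧ x.z = 0 ∧
    x.u1 ∈ LinearMap.range D.y}
  zero_mem' := ⟨rfl, rfl, rfl, rfl, rfl, Submodule.zero_mem _⟩
  add_mem' := by
    rintro x y ⟨h1, h2, h3, h4, h5, h6⟩ ⟨g1, g2, g3, g4, g5, g6⟩
    exact ⟨by simp [h1, g1], by simp [h2, g2], by simp [h3, g3], by simp [h4, g4],
      by simp [h5, g5], Submodule.add_mem _ h6 g6⟩
  smul_mem' := by
    rintro r x ⟨h1, h2, h3, h4, h5, h6⟩
    refine ⟨by simp [smul_eq_mul, h1], by simp [smul_eq_mul, h2], by simp [smul_eq_mul, h1, h2, h3],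
      by simp [smul_eq_mul, h2, h3, h4], by simp [smul_eq_mul, h5], ?_⟩
    simp only [smul_eq_mul, Tri.mul_u1, h1, zero_smul, add_zero]
    exact Submodule.add_mem _ (Submodule.smul_mem _ _ h6)
      (Submodule.smul_of_tower_mem _ _ (LinearMap.mem_range_self _ _))

/-- The left ideal `Tri b`. -/
def Bb : Submodule (Tri k D) (Tri k D) where
  carrier := {x | x.c1 = 0 ∧ x.c2 = 0 ∧ x.a = 0 ∧ x.u1 = 0 ∧ x.z = 0 ∧
    x.u2 ∈ LinearMap.range D.w}
  zero_mem' := ⟨rfl, rfl, rfl, rfl, rfl, Submodule.zero_mem _⟩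
  add_mem' := by
    rintro x y ⟨h1, h2, h3, h4, h5, h6⟩ ⟨g1, g2, g3, g4, g5, g6⟩
    exact ⟨by simp [h1, g1], by simp [h2, g2], by simp [h3, g3], by simp [h4, g4],
      by simp [h5, g5], Submodule.add_mem _ h6 g6⟩
  smul_mem' := by
    rintro r x ⟨h1, h2, h3, h4, h5, h6⟩
    refine ⟨by simp [smul_eq_mul, h1], by simp [smul_eq_mul, h2], by simp [smul_eq_mul, h1, h2, h3],
      by simp [smul_eq_mul, h1, h3, h4], by simp [smul_eq_mul, h5], ?_⟩
    simp only [smul_eq_mul, Tri.mul_u2, h2, zero_smul, add_zero]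
    exact Submodule.add_mem _ (Submodule.smul_mem _ _ h6)
      (Submodule.smul_of_tower_mem _ _ (LinearMap.mem_range_self _ _))

/-- The kernel of right multiplication by `b` on `Tri e1`. -/
def L3 : Submodule (Tri k D) (Tri k D) where
  carrier := {x | x.c1 = 0 ∧ x.c2 = 0 ∧ x.b = 0 ∧ x.u2 = 0 ∧ x.z = 0 ∧ D.w x.u1 = 0}
  zero_mem' := ⟨rfl, rfl, rfl, rfl, rfl, map_zero _⟩
  add_mem' := by
    rintro x y ⟨h1, h2, h3, h4, h5, h6⟩ ⟨g1, g2, g3, g4, g5, g6⟩
    exact ⟨by simp [h1, g1], by simp [h2, g2], by simp [h3, g3], by simp [h4, g4],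
      by simp [h5, g5], by simp [h6, g6]⟩
  smul_mem' := by
    rintro r x ⟨h1, h2, h3, h4, h5, h6⟩
    exact ⟨by simp [smul_eq_mul, h1], by simp [smul_eq_mul, h2],
      by simp [smul_eq_mul, h1, h2, h3], by simp [smul_eq_mul, h2, h3, h4],
      by simp [smul_eq_mul, h5],
      by simp [smul_eq_mul, h1, h6, D.wy, LinearMap.map_smul_of_tower]⟩

/-- Right multiplication by the idempotent, onto `P1`. -/
def retP1 : Tri k D →ₗ[Tri k D] P1 k D :=
  LinearMap.codRestrict _ (LinearMap.toSpanSingleton (Tri k D) (Tri k D) ⟨1, 0, 0, 0, 0, 0, 0⟩)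
    fun x => by refine ⟨?_, ?_, ?_, ?_⟩ <;> simp

lemma retP1_subtype (x : P1 k D) : retP1 k D x.1 = x := by
  obtain ⟨x, h1, h2, h3, h4⟩ := x
  refine Subtype.ext ?_
  show x * (⟨1, 0, 0, 0, 0, 0, 0⟩ : Tri k D) = x
  ext <;> simp [h1, h2, h3, h4]

instance P1_projective : Module.Projective (Tri k D) (P1 k D) :=
  Module.Projective.of_split (P1 k D).subtype (retP1 k D)
    (LinearMap.ext fun x => retP1_subtype k D x)

/-- Right multiplication by the idempotent, onto `P2`. -/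
def retP2 : Tri k D →ₗ[Tri k D] P2 k D :=
  LinearMap.codRestrict _ (LinearMap.toSpanSingleton (Tri k D) (Tri k D) ⟨0, 1, 0, 0, 0, 0, 0⟩)
    fun x => by refine ⟨?_, ?_, ?_, ?_⟩ <;> simp

lemma retP2_subtype (x : P2 k D) : retP2 k D x.1 = x := by
  obtain ⟨x, h1, h2, h3, h4⟩ := x
  refine Subtype.ext ?_
  show x * (⟨0, 1, 0, 0, 0, 0, 0⟩ : Tri k D) = x
  ext <;> simp [h1, h2, h3, h4]

instance P2_projective : Module.Projective (Tri k D) (P2 k D) :=
  Module.Projective.of_split (P2 k D).subtype (retP2 k D)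
    (LinearMap.ext fun x => retP2_subtype k D x)

instance P1_finite : Module.Finite (Tri k D) (P1 k D) :=
  Module.Finite.of_surjective (retP1 k D) fun x => ⟨x.1, retP1_subtype k D x⟩

/-! ### The module `M = Tri e1 / Tri a` -/

/-- The module `M`. -/
def Mod : Type := k × Uv D

instance : AddCommGroup (Mod k D) := inferInstanceAs (AddCommGroup (k × Uv D))

instance : SMul (Tri k D) (Mod k D) :=
  ⟨fun r m => (r.c1 * m.1, r.z • m.2 + m.1 • (LinearMap.range D.y).mkQ r.u1)⟩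

variable {k D}

lemma smul_mod (r : Tri k D) (m : Mod k D) :
    r • m = (r.c1 * m.1, r.z • m.2 + m.1 • (LinearMap.range D.y).mkQ r.u1) := rfl

lemma mkQ_y (u : U2) : (LinearMap.range D.y).mkQ (D.y u) = 0 :=
  (Submodule.Quotient.mk_eq_zero _).2 (LinearMap.mem_range_self _ _)

instance : Module (Tri k D) (Mod k D) where
  one_smul m := by
    refine Prod.ext (one_mul _) ?_
    show (1 : A) • m.2 + m.1 • (LinearMap.range D.y).mkQ (0 : U1) = m.2
    simp
  mul_smul r s m := by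
    refine Prod.ext (mul_assoc _ _ _) ?_
    show (r.z * s.z) • m.2 + m.1 • (LinearMap.range D.y).mkQ (r * s).u1 =
      r.z • (s.z • m.2 + m.1 • (LinearMap.range D.y).mkQ s.u1) +
        (s.c1 * m.1) • (LinearMap.range D.y).mkQ r.u1
    rw [Tri.mul_u1, map_add, map_add, map_smul, LinearMap.map_smul_of_tower,
      LinearMap.map_smul_of_tower, mkQ_y, smul_zero, add_zero, smul_add, smul_add,
      mul_smul r.z s.z, smul_comm r.z m.1, smul_smul m.1 s.c1, mul_comm m.1 s.c1]
    abel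
  smul_zero r := by
    refine Prod.ext (mul_zero _) ?_
    show r.z • (0 : Uv D) + (0 : k) • (LinearMap.range D.y).mkQ r.u1 = 0
    simp
  smul_add r m m' := by
    refine Prod.ext (mul_add _ _ _) ?_
    show r.z • (m.2 + m'.2) + (m.1 + m'.1) • (LinearMap.range D.y).mkQ r.u1 =
      r.z • m.2 + m.1 • (LinearMap.range D.y).mkQ r.u1 +
        (r.z • m'.2 + m'.1 • (LinearMap.range D.y).mkQ r.u1)
    rw [smul_add, add_smul]
    abel
  add_smul r s m := by
    refine Prod.ext (add_mul _ _ _) ?_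
    show (r.z + s.z) • m.2 + m.1 • (LinearMap.range D.y).mkQ (r.u1 + s.u1) =
      r.z • m.2 + m.1 • (LinearMap.range D.y).mkQ r.u1 +
        (s.z • m.2 + m.1 • (LinearMap.range D.y).mkQ s.u1)
    rw [map_add, smul_add, add_smul]
    abel
  zero_smul m := by
    refine Prod.ext (zero_mul _) ?_
    show (0 : A) • m.2 + m.1 • (LinearMap.range D.y).mkQ (0 : U1) = 0
    simp

/-- The projective cover `Tri e1 → M`. -/
def toMod : P1 k D →ₗ[Tri k D] Mod k D where
  toFun x := (x.1.c1, (LinearMap.range D.y).mkQ x.1.u1)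
  map_add' x x' := Prod.ext rfl ((LinearMap.range D.y).mkQ.map_add _ _)
  map_smul' r x := by
    refine Prod.ext rfl ?_
    show (LinearMap.range D.y).mkQ (r * x.1).u1 = r.z • (LinearMap.range D.y).mkQ x.1.u1 +
      x.1.c1 • (LinearMap.range D.y).mkQ r.u1
    simp only [Tri.mul_u1, map_add, map_smul, LinearMap.map_smul_of_tower, mkQ_y, smul_zero,
      add_zero]

/-- Scalar multiplication on `M`. -/
def scalar (c : k) : Mod k D →ₗ[Tri k D] Mod k D where
  toFun m := (c * m.1, c • m.2)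
  map_add' m m' := Prod.ext (mul_add _ _ _) (smul_add _ _ _)
  map_smul' r m := by
    refine Prod.ext (mul_left_comm _ _ _) ?_
    show c • (r.z • m.2 + m.1 • (LinearMap.range D.y).mkQ r.u1) =
      r.z • (c • m.2) + (c * m.1) • (LinearMap.range D.y).mkQ r.u1
    rw [smul_add, smul_comm c r.z, mul_smul]

/-- The `A`-block of `M`. -/
def jMod : Res k D (Uv D) →ₗ[Tri k D] Mod k D where
  toFun v := ((0 : k), v)
  map_add' v v' := Prod.ext (add_zero (0 : k)).symm rfl
  map_smul' r v := by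
    refine Prod.ext (mul_zero _).symm ?_
    show r.z • (show Uv D from v) =
      r.z • (show Uv D from v) + (0 : k) • (LinearMap.range D.y).mkQ r.u1
    simp

/-- The `A`-block of the algebra. -/
def jTri : Res k D (U1 × U2 × A) →ₗ[Tri k D] Tri k D where
  toFun v := ⟨0, 0, 0, 0, Prod.fst (show U1 × U2 × A from v),
    (Prod.snd (show U1 × U2 × A from v)).1, (Prod.snd (show U1 × U2 × A from v)).2⟩
  map_add' v v' := by ext <;> simp <;> rfl
  map_smul' r v := by ext <;> simp [smul_eq_mul] <;> rfl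

lemma jMod_injective : Function.Injective (jMod (k := k) (D := D)) :=
  fun _ _ h => congrArg Prod.snd h

lemma jTri_injective : Function.Injective (jTri (k := k) (D := D)) :=
  fun _ _ h => Prod.ext (congrArg Tri.u1 h) (Prod.ext (congrArg Tri.u2 h) (congrArg Tri.z h))

lemma jMod_fix (m : Mod k D) (h : (eA : Tri k D) • m = m) : m ∈ LinearMap.range (jMod (D := D)) :=
  ⟨m.2, Prod.ext ((congrArg Prod.fst h).symm.trans (zero_mul _)).symm rfl⟩

lemma jTri_fix (x : Tri k D) (h : (eA : Tri k D) • x = x) :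
    x ∈ LinearMap.range (jTri (D := D)) := by
  refine ⟨(x.u1, x.u2, x.z), ?_⟩
  rw [← h]
  ext <;> simp [eA, smul_eq_mul, jTri]

/-! ### The exact sequences -/

/-- Inclusion `Ba → P1`. -/
def iBa : Ba k D →ₗ[Tri k D] P1 k D :=
  Submodule.inclusion fun _ h => ⟨h.2.1, h.2.2.1, h.2.2.2.1, h.2.2.2.2.1⟩

/-- Inclusion `Bb → P2`. -/
def iBb : Bb k D →ₗ[Tri k D] P2 k D :=
  Submodule.inclusion fun _ h => ⟨h.1, h.2.2.1, h.2.2.2.1, h.2.2.2.2.1⟩

/-- Inclusion `L3 → P1`. -/
def iL3 : L3 k D →ₗ[Tri k D] P1 k D :=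
  Submodule.inclusion fun _ h => ⟨h.2.1, h.2.2.1, h.2.2.2.1, h.2.2.2.2.1⟩

/-- Inclusion `Ba → L3`. -/
def jBa : Ba k D →ₗ[Tri k D] L3 k D :=
  Submodule.inclusion fun _ h =>
    ⟨h.1, h.2.1, h.2.2.1, h.2.2.2.1, h.2.2.2.2.1, by
      obtain ⟨u, hu⟩ := h.2.2.2.2.2
      rw [← hu]
      exact D.wy u⟩

lemma mul_aE_mem (x : P2 k D) : x.1 * (⟨0, 0, 1, 0, 0, 0, 0⟩ : Tri k D) ∈ Ba k D := by
  refine ⟨?_, ?_, ?_, ?_, ?_, ?_⟩ <;> simp

/-- Right multiplication by `a`. -/
def mulA : P2 k D →ₗ[Tri k D] Ba k D :=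
  LinearMap.codRestrict _ ((LinearMap.toSpanSingleton (Tri k D) (Tri k D)
    ⟨0, 0, 1, 0, 0, 0, 0⟩).comp (P2 k D).subtype) fun x => mul_aE_mem x

lemma mul_bE_mem (x : P1 k D) : x.1 * (⟨0, 0, 0, 1, 0, 0, 0⟩ : Tri k D) ∈ Bb k D := by
  refine ⟨?_, ?_, ?_, ?_, ?_, ?_⟩ <;> simp

/-- Right multiplication by `b`. -/
def mulB : P1 k D →ₗ[Tri k D] Bb k D :=
  LinearMap.codRestrict _ ((LinearMap.toSpanSingleton (Tri k D) (Tri k D)
    ⟨0, 0, 0, 1, 0, 0, 0⟩).comp (P1 k D).subtype) fun x => mul_bE_mem x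

lemma mulA_coe (x : P2 k D) :
    (mulA x).1 = x.1 * (⟨0, 0, 1, 0, 0, 0, 0⟩ : Tri k D) := rfl

lemma mulB_coe (x : P1 k D) :
    (mulB x).1 = x.1 * (⟨0, 0, 0, 1, 0, 0, 0⟩ : Tri k D) := rfl

/-- The map `L3 → V`. -/
def toV : L3 k D →ₗ[Tri k D] Res k D (V D) where
  toFun x := (⟨(LinearMap.range D.y).mkQ x.1.u1,
    Submodule.mem_map_of_mem (LinearMap.mem_ker.2 x.2.2.2.2.2.2)⟩ : V D)
  map_add' x x' := Subtype.ext ((LinearMap.range D.y).mkQ.map_add _ _)
  map_smul' r x := by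
    refine Subtype.ext ?_
    show (LinearMap.range D.y).mkQ (r * x.1).u1 = r.z • (LinearMap.range D.y).mkQ x.1.u1
    simp only [Tri.mul_u1, map_add, map_smul, LinearMap.map_smul_of_tower, mkQ_y, smul_zero,
      add_zero, x.2.1, zero_smul]

lemma iBa_exact : Function.Exact (iBa (k := k) (D := D)) toMod := by
  intro x
  constructor
  · intro hx
    exact ⟨⟨x.1, congrArg Prod.fst hx, x.2.1, x.2.2.1, x.2.2.2.1, x.2.2.2.2,
      (Submodule.Quotient.mk_eq_zero _).1 (congrArg Prod.snd hx)⟩, rfl⟩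
  · rintro ⟨z, rfl⟩
    exact Prod.ext z.2.1 ((Submodule.Quotient.mk_eq_zero _).2 z.2.2.2.2.2.2)

lemma toMod_surjective : Function.Surjective (toMod (k := k) (D := D)) := by
  intro m
  obtain ⟨u, hu⟩ := (LinearMap.range D.y).mkQ_surjective m.2
  exact ⟨⟨⟨m.1, 0, 0, 0, u, 0, 0⟩, rfl, rfl, rfl, rfl⟩, Prod.ext rfl hu⟩

lemma iBb_exact (hy : ∀ u, D.y u = 0 → ∃ v, D.w v = u) :
    Function.Exact (iBb (k := k) (D := D)) mulA := by
  intro x
  constructor
  · intro hx
    have h := congrArg Subtype.val hx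
    rw [mulA_coe] at h
    have h2 : x.1.c2 = 0 := by simpa using congrArg Tri.a h
    have h3 : D.y x.1.u2 = 0 := by simpa using congrArg Tri.u1 h
    exact ⟨⟨x.1, x.2.1, h2, x.2.2.1, x.2.2.2.1, x.2.2.2.2, hy _ h3⟩, rfl⟩
  · rintro ⟨z, rfl⟩
    refine Subtype.ext ?_
    obtain ⟨⟨z, h1, h2, h3, h4, h5, v, hv⟩, rfl⟩ : ∃ q, q = z := ⟨z, rfl⟩
    show z * (⟨0, 0, 1, 0, 0, 0, 0⟩ : Tri k D) = 0
    ext <;> simp [h1, h2, h3, h4, h5, ← hv, D.yw]

lemma mulA_surjective : Function.Surjective (mulA (k := k) (D := D)) := by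
  rintro ⟨z, h1, h2, h3, h4, h5, u, hu⟩
  refine ⟨⟨⟨0, z.a, 0, 0, 0, u, 0⟩, rfl, rfl, rfl, rfl⟩, Subtype.ext ?_⟩
  rw [mulA_coe]
  ext <;> simp [h1, h2, h3, h4, h5, hu]

lemma iL3_exact : Function.Exact (iL3 (k := k) (D := D)) mulB := by
  intro x
  constructor
  · intro hx
    have h := congrArg Subtype.val hx
    rw [mulB_coe] at h
    have h2 : x.1.c1 = 0 := by simpa using congrArg Tri.b h
    have h3 : D.w x.1.u1 = 0 := by simpa using congrArg Tri.u2 h
    exact ⟨⟨x.1, h2, x.2.1, x.2.2.1, x.2.2.2.1, x.2.2.2.2, h3⟩, rfl⟩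
  · rintro ⟨⟨z, h1, h2, h3, h4, h5, h6⟩, rfl⟩
    refine Subtype.ext ?_
    show z * (⟨0, 0, 0, 1, 0, 0, 0⟩ : Tri k D) = 0
    ext <;> simp [h1, h2, h3, h4, h5, h6]

lemma mulB_surjective : Function.Surjective (mulB (k := k) (D := D)) := by
  rintro ⟨z, h1, h2, h3, h4, h5, u, hu⟩
  refine ⟨⟨⟨z.b, 0, 0, 0, u, 0, 0⟩, rfl, rfl, rfl, rfl⟩, Subtype.ext ?_⟩
  rw [mulB_coe]
  ext <;> simp [h1, h2, h3, h4, h5, hu]

lemma jBa_exact : Function.Exact (jBa (k := k) (D := D)) toV := by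
  intro x
  constructor
  · intro hx
    exact ⟨⟨x.1, x.2.1, x.2.2.1, x.2.2.2.1, x.2.2.2.2.1, x.2.2.2.2.2.1,
      (Submodule.Quotient.mk_eq_zero _).1 (congrArg Subtype.val hx)⟩, rfl⟩
  · rintro ⟨z, rfl⟩
    exact Subtype.ext ((Submodule.Quotient.mk_eq_zero _).2 z.2.2.2.2.2.2)

lemma toV_surjective : Function.Surjective (toV (k := k) (D := D)) := by
  intro v
  obtain ⟨u, hu, hv⟩ := (show V D from v).2
  exact ⟨⟨⟨0, 0, 0, 0, u, 0, 0⟩, rfl, rfl, rfl, rfl, rfl, hu⟩, Subtype.ext hv⟩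

end P195.Glue
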