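import Vale.Agent.P195.Maps

/-! The translation lift between the resolutions with parameters `c + 1` and `c`,
scaled by `c ^ 2`. -/

noncomputable section

namespace Vale.Agent.P195.Maps

open MvPolynomial
open scoped TensorProduct

/-- The map `q ↦ ∑ x m ⊗ d m q`. -/
def T : Pol →ₗ[ℂ] OT := ∑ m, tl (x m) ∘ₗ d m

/-- Lift on the last two terms. -/
def P1 (c : ℂ) : Pol →ₗ[ℂ] OT := (c ^ 2) • T

/-- Lift on the first term. -/
def P3 (c : ℂ) : Pol →ₗ[ℂ] OT := (c * (c + 1)) • T

/-- Lift, negative to negative lattice. -/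
def Pmm (c : ℂ) (l k : Fin 2) : Pol →ₗ[ℂ] OT :=
  (c ^ 2 * δ l k) • T + c • (tl (x k) ∘ₗ d l)

/-- Lift, positive to positive lattice. -/
def Ppp (c : ℂ) (l k : Fin 2) : Pol →ₗ[ℂ] OT := (c * (c + 1) * δ l k) • T

/-- Lift, positive to negative lattice. -/
def Ppm (c : ℂ) (l k : Fin 2) : Pol →ₗ[ℂ] OT :=
  tl (x l) ∘ₗ x k + (c - 1) • (tl (x k) ∘ₗ x l)
    + ∑ m, tl (x k * (a l m - δ l m • E)) ∘ₗ x m

theorem a_apply (i k : Fin 2) (p : Pol) : a i k p = x i (d k p) := rfl

theorem d_comm (p : Pol) : d 1 (d 0 p) = d 0 (d 1 p) := pd_comm p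

theorem x_comm (p : Pol) : x 1 (x 0 p) = x 0 (x 1 p) := by
  simp [mul_left_comm]

theorem x_swap : x 1 * x 0 = x 0 * x 1 := LinearMap.ext fun p => x_comm p

theorem x_swap' (u : Op) : x 1 * (x 0 * u) = x 0 * (x 1 * u) := by
  rw [← mul_assoc, x_swap, mul_assoc]

theorem d_swap : d 1 * d 0 = d 0 * d 1 := LinearMap.ext fun p => d_comm p

theorem d_swap' (u : Op) : d 1 * (d 0 * u) = d 0 * (d 1 * u) := by
  rw [← mul_assoc, d_swap, mul_assoc]

theorem d_mul_x' (i k : Fin 2) (u : Op) : d i * (x k * u) = x k * (d i * u) + δ i k • u := by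
  rw [← mul_assoc, d_mul_x, add_mul, mul_assoc, smul_mul_assoc, one_mul]

theorem mul_neg_op (u v : Op) : u * -v = -(u * v) := mul_neg u v

theorem lift_one (c : ℂ) (i k : Fin 2) (q : Pol) :
    bind (P1 c) (D1 i k q) = bind (D1 i k) (P1 c q) := by
  fin_cases i <;> fin_cases k <;>
    simp [P1, T, D1, δ, Fin.sum_univ_two, a_apply, a_mul_x, d_x_apply, d_comm,
      TensorProduct.sub_tmul, TensorProduct.add_tmul, TensorProduct.tmul_add,
      TensorProduct.tmul_smul, smul_ot, neg_ot, mul_add, mul_sub, -x_apply, -d_apply] <;>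
    module

theorem lift_two_minus (c : ℂ) (i k l : Fin 2) (q : Pol) :
    bind (P1 c) (D2m (c + 1) i k l q) = ∑ k', bind (D2m c i k k') (Pmm c l k' q) := by
  fin_cases i <;> fin_cases k <;> fin_cases l <;>
    simp [P1, Pmm, T, D2m, E, a, δ, Fin.sum_univ_two, d_x_apply, d_comm, x_comm, x_swap, x_swap',
      d_swap, d_swap', d_mul_x, d_mul_x', mul_assoc,
      TensorProduct.sub_tmul, TensorProduct.add_tmul, TensorProduct.tmul_add,
      TensorProduct.tmul_smul, smul_ot, neg_ot, mul_add, mul_sub, add_mul, sub_mul,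
      -x_apply, -d_apply] <;>
    module

set_option maxHeartbeats 600000 in
-- eight cases with normal ordering
theorem lift_two_plus (c : ℂ) (i k l : Fin 2) (t : Pol) (ht : E t = (c - 1) • t) :
    bind (P1 c) (D2p (c + 1) i k l t)
      = ∑ k', (bind (D2p c i k k') (Ppp c l k' t) + bind (D2m c i k k') (Ppm c l k' t)) := by
  have hU := congrArg (fun s => (x k * (δ i l • (E + 1) - a l i) - (c * δ i l) • x k
    + (c * δ i k) • x l) ⊗ₜ[ℂ] s) ht
  fin_cases i <;> fin_cases k <;> fin_cases l <;>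
    simp [P1, Ppp, Ppm, T, D2p, D2m, E, a, δ, Fin.sum_univ_two, d_x_apply, d_comm, x_comm,
      x_swap, x_swap', d_swap, d_swap', d_mul_x, d_mul_x', mul_assoc,
      TensorProduct.sub_tmul, TensorProduct.add_tmul, TensorProduct.tmul_add,
      TensorProduct.tmul_smul, smul_ot, neg_ot, mul_add, mul_sub, add_mul, sub_mul,
      mul_neg_op, a_apply, -x_apply, -d_apply] at hU ⊢ <;>
    linear_combination (norm := module) (-c) • hU

theorem lift_three_plus (c : ℂ) (k : Fin 2) (p : Pol) :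
    ∑ l, bind (Ppp c l k) (D3p (c + 1) l p) = bind (D3p c k) (P3 c p) := by
  fin_cases k <;>
    simp [P3, Ppp, T, D3p, E, a, δ, Fin.sum_univ_two, d_x_apply, d_comm, x_comm,
      x_swap, x_swap', d_swap, d_swap', d_mul_x, d_mul_x', mul_assoc,
      TensorProduct.sub_tmul, TensorProduct.add_tmul, TensorProduct.tmul_add,
      TensorProduct.tmul_smul, smul_ot, neg_ot, mul_add, mul_sub, add_mul, sub_mul,
      -x_apply, -d_apply] <;>
    module

theorem lift_three_minus (c : ℂ) (k : Fin 2) (p : Pol) (hp : E p = c • p) :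
    ∑ l, (bind (Ppm c l k) (D3p (c + 1) l p) + bind (Pmm c l k) (D3m (c + 1) l p))
      = bind (D3m c k) (P3 c p) := by
  have hU := congrArg (fun s => ((c - 1) • x k - x k * E) ⊗ₜ[ℂ] s) hp
  fin_cases k <;>
    simp [P3, Pmm, Ppm, T, D3p, D3m, E, a, δ, Fin.sum_univ_two, d_x_apply, d_comm, x_comm,
      x_swap, x_swap', d_swap, d_swap', d_mul_x, d_mul_x', mul_assoc,
      TensorProduct.sub_tmul, TensorProduct.add_tmul, TensorProduct.tmul_add,
      TensorProduct.tmul_smul, smul_ot, neg_ot, mul_add, mul_sub, add_mul, sub_mul,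
      a_apply, -x_apply, -d_apply] at hU ⊢ <;>
    linear_combination (norm := module) (-(c + 1)) • hU

end Vale.Agent.P195.Maps
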