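import Vale.Agent.P195.Co

/-!
P195: the Auslander-Reiten property passes from a ring of characteristic `p` to its group
algebra over a finite `p`-group.
-/

namespace Vale.Agent.P195

open CategoryTheory Abelian MonoidAlgebra

universe u

/-- The Auslander-Reiten property: every finitely generated module with vanishing positive
self-extensions and vanishing positive extensions into the ring is projective. -/
def ARProperty (A : Type u) [Ring A] : Prop :=
  ∀ M : ModuleCat.{u} A, Module.Finite A M →
    (∀ i : ℕ, 1 ≤ i → Subsingleton (Ext M M i)) →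
    (∀ i : ℕ, 1 ≤ i → Subsingleton (Ext M (ModuleCat.of A A) i)) → Module.Projective A M

variable {A : Type u} [Ring A] {P : Type} [Group P] {p : ℕ}

/-- Translation of functions on the group. -/
def sh (g : P) : (P → ZMod p) →+ (P → ZMod p) where
  toFun v h := v (h * g)
  map_zero' := rfl
  map_add' _ _ := rfl

theorem sh_sh (g k : P) (v : P → ZMod p) : sh g (sh k v) = sh (g * k) v := by
  funext h
  show v (h * g * k) = v (h * (g * k))
  rw [mul_assoc]

theorem sh_one (v : P → ZMod p) : sh 1 v = v := by
  funext h
  show v (h * 1) = v h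
  rw [mul_one]

/-- Additive maps from functions on the group into `M`. -/
def Tm (P : Type) (p : ℕ) (M : Type u) [AddCommGroup M] : Type u := (P → ZMod p) →+ M

section

variable (M : Type u) [AddCommGroup M]

noncomputable instance : AddCommGroup (Tm P p M) :=
  inferInstanceAs (AddCommGroup ((P → ZMod p) →+ M))

variable {M} in
/-- Evaluation. -/
def Tm.app (F : Tm P p M) : (P → ZMod p) →+ M := F

variable [Module (MonoidAlgebra A P) M]

/-- Scalars act on the values. -/
noncomputable def tmScalar : A →+* AddMonoid.End (Tm P p M) where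
  toFun a := AddMonoidHom.compHom ((smulAddHom (MonoidAlgebra A P) M) (sc (P := P) a))
  map_one' := by
    refine AddMonoidHom.ext fun F => AddMonoidHom.ext fun v => ?_
    show sc (P := P) (1 : A) • F v = F v
    rw [map_one, one_smul]
  map_mul' a b := by
    refine AddMonoidHom.ext fun F => AddMonoidHom.ext fun v => ?_
    show sc (P := P) (a * b) • F v = sc (P := P) a • sc (P := P) b • F v
    rw [map_mul, mul_smul]
  map_zero' := by
    refine AddMonoidHom.ext fun F => AddMonoidHom.ext fun v => ?_
    show sc (P := P) (0 : A) • F v = 0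
    rw [map_zero, zero_smul]
  map_add' a b := by
    refine AddMonoidHom.ext fun F => AddMonoidHom.ext fun v => ?_
    show sc (P := P) (a + b) • F v = sc (P := P) a • F v + sc (P := P) b • F v
    rw [map_add, add_smul]

/-- The group acts by conjugation. -/
noncomputable def tmShift : P →* AddMonoid.End (Tm P p M) where
  toFun g :=
    { toFun := fun F => ((smulAddHom (MonoidAlgebra A P) M) (el g)).comp (F.comp (sh g⁻¹))
      map_zero' := AddMonoidHom.ext fun v => smul_zero (el (A := A) g)
      map_add' := fun F G => AddMonoidHom.ext fun v => smul_add (el (A := A) g) _ _ }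
  map_one' := by
    refine AddMonoidHom.ext fun F => AddMonoidHom.ext fun v => ?_
    show el (A := A) (1 : P) • F.app (sh 1⁻¹ v) = F.app v
    rw [el_one, one_smul, inv_one, sh_one]
  map_mul' g k := by
    refine AddMonoidHom.ext fun F => AddMonoidHom.ext fun v => ?_
    show el (A := A) (g * k) • F.app (sh (g * k)⁻¹ v) =
      el (A := A) g • el (A := A) k • F.app (sh k⁻¹ (sh g⁻¹ v))
    rw [sh_sh, ← mul_inv_rev, ← mul_smul, el_mul]

theorem tm_comm (a : A) (g : P) :
    Commute (tmScalar (A := A) (P := P) (p := p) M a) (tmShift (A := A) M g) := by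
  refine AddMonoidHom.ext fun F => AddMonoidHom.ext fun v => ?_
  show sc (P := P) a • el (A := A) g • F.app (sh g⁻¹ v) =
    el (A := A) g • sc (P := P) a • F.app (sh g⁻¹ v)
  rw [← mul_smul, ← mul_smul, el_mul_sc]

noncomputable instance tmModule : Module (MonoidAlgebra A P) (Tm P p M) :=
  Module.compHom _ (liftNCRingHom (tmScalar (A := A) (P := P) (p := p) M) (tmShift M) (tm_comm M))

variable {M}

omit [Module (MonoidAlgebra A P) M] [Group P] in
theorem tm_add_app (F G : Tm P p M) (v : P → ZMod p) : (F + G).app v = F.app v + G.app v := rfl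

theorem tm_el_smul (g : P) (F : Tm P p M) (v : P → ZMod p) :
    (el (A := A) g • F).app v = el (A := A) g • F.app (sh g⁻¹ v) := by
  show (((liftNCRingHom (tmScalar (A := A) (P := P) (p := p) M) (tmShift M) (tm_comm M)) (el g) :
    AddMonoid.End (Tm P p M)) F).app v = _
  rw [el, liftNCRingHom_single, map_one, one_mul]
  rfl

theorem tm_sc_smul (a : A) (F : Tm P p M) (v : P → ZMod p) :
    (sc (P := P) a • F).app v = sc (P := P) a • F.app v := by
  show (((liftNCRingHom (tmScalar (A := A) (P := P) (p := p) M) (tmShift M) (tm_comm M)) (sc a) :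
    AddMonoid.End (Tm P p M)) F).app v = _
  rw [show sc a = single (1 : P) a from rfl, liftNCRingHom_single, map_one, mul_one]
  rfl

/-- A subspace stable under translation. -/
def Stable (W : Submodule (ZMod p) (P → ZMod p)) : Prop := ∀ (g : P), ∀ v ∈ W, sh g v ∈ W

variable (M)

/-- The maps vanishing on a stable subspace. -/
noncomputable def ann (W : Submodule (ZMod p) (P → ZMod p)) (hW : Stable W) :
    Submodule (MonoidAlgebra A P) (Tm P p M) where
  carrier := {F | ∀ v ∈ W, F.app v = 0}
  zero_mem' := fun _ _ => rfl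
  add_mem' := fun {F G} hF hG v hv => by
    rw [tm_add_app, hF v hv, hG v hv, add_zero]
  smul_mem' := fun r F hF => by
    induction r using MonoidAlgebra.induction_linear with
    | zero => intro v _; rw [zero_smul]; rfl
    | add x y hx hy => intro v hv; rw [add_smul, tm_add_app, hx v hv, hy v hv, add_zero]
    | single g a =>
      intro v hv
      rw [single_eq_sc_mul_el, mul_smul, tm_sc_smul, tm_el_smul, hF _ (hW _ _ hv), smul_zero,
        smul_zero]

end

variable [Fact p.Prime] [Finite P]

omit [Group P] [Finite P] in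
theorem map_smul_zmod {M : Type u} [AddCommGroup M] (F : (P → ZMod p) →+ M) (c : ZMod p)
    (v : P → ZMod p) : F (c • v) = c.val • F v := by
  rw [← map_nsmul]
  congr 1
  rw [← Nat.cast_smul_eq_nsmul (ZMod p), ZMod.natCast_zmod_val]

omit [Finite P] in
theorem exists_hom_one {M : Type u} [AddCommGroup M] (m : M) (h : p • m = 0) :
    ∃ φ : ZMod p →+ M, φ 1 = m := by
  refine ⟨ZMod.lift p ⟨zmultiplesHom M m, by simpa using h⟩, ?_⟩
  rw [← Int.cast_one, ZMod.lift_coe]
  simp

/-- Translation acts on the quotient by a stable subspace. -/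
noncomputable abbrev quotAction (W : Submodule (ZMod p) (P → ZMod p)) (hW : Stable W) :
    MulAction P ((P → ZMod p) ⧸ W.toAddSubgroup) where
  smul g := QuotientAddGroup.map W.toAddSubgroup W.toAddSubgroup (sh g) (hW g)
  one_smul x := by
    induction x using QuotientAddGroup.induction_on with
    | H v => exact congrArg (QuotientAddGroup.mk (s := W.toAddSubgroup)) (sh_one v)
  mul_smul g k x := by
    induction x using QuotientAddGroup.induction_on with
    | H v => exact congrArg (QuotientAddGroup.mk (s := W.toAddSubgroup)) (sh_sh g k v).symm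

/-- A proper stable subspace has a nonzero vector fixed modulo it. -/
theorem exists_fixed (hP : IsPGroup p P) (W : Submodule (ZMod p) (P → ZMod p)) (hW : Stable W)
    (hne : W ≠ ⊤) : ∃ w, w ∉ W ∧ ∀ g, sh g w - w ∈ W := by
  let := quotAction W hW
  have := Fintype.ofFinite P
  have hdvd : p ∣ Nat.card ((P → ZMod p) ⧸ W.toAddSubgroup) := by
    have h : Nat.card ((P → ZMod p) ⧸ W) =
        Nat.card (ZMod p) ^ Module.finrank (ZMod p) ((P → ZMod p) ⧸ W) :=
      Module.natCard_eq_pow_finrank
    rw [Nat.card_zmod] at h
    change p ∣ Nat.card ((P → ZMod p) ⧸ W)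
    rw [h]
    have : Nontrivial ((P → ZMod p) ⧸ W) := Submodule.Quotient.nontrivial_iff.2 hne
    exact dvd_pow_self p Module.finrank_pos.ne'
  obtain ⟨b, hb, hb0⟩ := hP.exists_fixed_point_of_prime_dvd_card_of_fixed_point
    ((P → ZMod p) ⧸ W.toAddSubgroup) hdvd (a := 0) (fun g => map_zero _)
  induction b using QuotientAddGroup.induction_on with
  | H w =>
    refine ⟨w, fun hw => hb0 ((QuotientAddGroup.eq_zero_iff w).2 hw).symm, fun g => ?_⟩
    exact (QuotientAddGroup.eq_iff_sub_mem (N := W.toAddSubgroup)).1 (hb g)

omit [Finite P] in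
theorem stable_sup {W : Submodule (ZMod p) (P → ZMod p)} (hW : Stable W) {w : P → ZMod p}
    (hw : ∀ g, sh g w - w ∈ W) : Stable (W ⊔ Submodule.span (ZMod p) {w}) := by
  intro g v hv
  obtain ⟨y, hy, z, hz, rfl⟩ := Submodule.mem_sup.1 hv
  obtain ⟨c, rfl⟩ := Submodule.mem_span_singleton.1 hz
  have : sh g (y + c • w) = sh g y + c • (sh g w - w) + c • w := by
    rw [add_assoc, ← smul_add, sub_add_cancel, map_add]
    rfl
  rw [this]
  exact add_mem (Submodule.mem_sup_left (add_mem (hW g y hy) (W.smul_mem c (hw g))))
    (Submodule.mem_sup_right hz)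

omit [Finite P] in
theorem stable_bot : Stable (⊥ : Submodule (ZMod p) (P → ZMod p)) := by
  intro g v hv
  rw [Submodule.mem_bot] at hv ⊢
  rw [hv, map_zero]

section

variable {M : Type u} [AddCommGroup M] [Module (MonoidAlgebra A P) M]

/-- Evaluation at a vector fixed modulo `W`. -/
noncomputable def evalAt (W : Submodule (ZMod p) (P → ZMod p)) (hW : Stable W) (w : P → ZMod p)
    (hw : ∀ g, sh g w - w ∈ W) : ann (A := A) M W hW →ₗ[MonoidAlgebra A P] M :=
  mkLinear { toFun := fun F => F.1.app w, map_zero' := rfl, map_add' := fun _ _ => rfl }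
    (fun g F => by
      show (el (A := A) g • F.1).app w = el (A := A) g • F.1.app w
      rw [tm_el_smul]
      congr 1
      have := F.2 _ (hw g⁻¹)
      rwa [map_sub, sub_eq_zero] at this)
    (fun a F => tm_sc_smul a F.1 w)

/-- The step of the filtration, as a short complex. -/
noncomputable def stepComplex (W : Submodule (ZMod p) (P → ZMod p)) (hW : Stable W)
    (w : P → ZMod p) (hw : ∀ g, sh g w - w ∈ W) :
    ShortComplex (ModuleCat.{u} (MonoidAlgebra A P)) :=
  ModuleCat.shortComplexOfCompEqZero
    (Submodule.inclusion (p := ann (A := A) M (W ⊔ Submodule.span (ZMod p) {w}) (stable_sup hW hw))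
      (p' := ann M W hW) fun _ hF v hv => hF v (Submodule.mem_sup_left hv))
    (evalAt W hW w hw)
    (LinearMap.ext fun F =>
      F.2 w (Submodule.mem_sup_right (Submodule.mem_span_singleton_self w)))

theorem step_shortExact (hpM : ∀ m : M, p • m = 0) (W : Submodule (ZMod p) (P → ZMod p))
    (hW : Stable W) (w : P → ZMod p) (hw : ∀ g, sh g w - w ∈ W) (hnot : w ∉ W) :
    (stepComplex (A := A) (M := M) W hW w hw).ShortExact where
  exact := by
    rw [ShortComplex.ShortExact.moduleCat_exact_iff_function_exact]
    intro F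
    constructor
    · intro hF
      refine ⟨⟨F.1, fun v hv => ?_⟩, rfl⟩
      obtain ⟨y, hy, z, hz, rfl⟩ := Submodule.mem_sup.1 hv
      obtain ⟨c, rfl⟩ := Submodule.mem_span_singleton.1 hz
      rw [map_add, F.2 y hy, map_smul_zmod, zero_add]
      change c.val • F.1.app w = 0
      rw [show F.1.app w = 0 from hF, smul_zero]
    · rintro ⟨G, rfl⟩
      exact G.2 w (Submodule.mem_sup_right (Submodule.mem_span_singleton_self w))
  mono_f := (ModuleCat.mono_iff_injective _).2 fun x y hxy =>
    Subtype.ext (congrArg (fun t : ann (A := A) M W hW => t.1) hxy :)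
  epi_g := (ModuleCat.epi_iff_surjective _).2 (by
    intro m
    obtain ⟨l, hlw, hlW⟩ := Submodule.exists_dual_map_eq_bot_of_notMem hnot inferInstance
    obtain ⟨φ, hφ⟩ := exists_hom_one (p := p) m (hpM m)
    have hl : ∀ v, l v = 0 → ((l w)⁻¹ • l) v = 0 := fun v h => by
      simp [h]
    refine ⟨⟨φ.comp ((l w)⁻¹ • l).toAddMonoidHom, fun v hv => ?_⟩, ?_⟩
    · show φ (((l w)⁻¹ • l) v) = 0
      have : l v ∈ W.map l := Submodule.mem_map_of_mem hv
      rw [hlW, Submodule.mem_bot] at this
      rw [hl v this, map_zero]
    · show φ (((l w)⁻¹ • l) w) = m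
      rw [LinearMap.smul_apply, smul_eq_mul, inv_mul_cancel₀ hlw, hφ])

end

omit [Finite P] in
theorem extVanish_subsingleton {M N : ModuleCat.{u} (MonoidAlgebra A P)} [Subsingleton N] :
    ExtVanish M N := by
  intro i _
  refine subsingleton_of_forall_eq 0 fun x => ?_
  have h : 𝟙 N = 0 := by ext a; exact Subsingleton.elim (α := N) _ _
  rw [← x.comp_mk₀_id, h, Ext.mk₀_zero, Ext.comp_zero]

/-- Self-orthogonality forces orthogonality to every piece of the filtration. -/
theorem extVanish_ann (hP : IsPGroup p P) (M : ModuleCat.{u} (MonoidAlgebra A P))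
    (hpM : ∀ m : M, p • m = 0) (hMM : ExtVanish M M)
    (W : Submodule (ZMod p) (P → ZMod p)) (hW : Stable W) :
    ExtVanish M (ModuleCat.of _ (ann (A := A) (M : Type u) W hW)) := by
  induction W using WellFoundedGT.induction with
  | ind W ih =>
    by_cases htop : W = ⊤
    · have : Subsingleton (ann (A := A) (M : Type u) W hW) :=
        ⟨fun F G => Subtype.ext <| AddMonoidHom.ext fun v => by
          have h1 := F.2 v (htop ▸ Submodule.mem_top)
          have h2 := G.2 v (htop ▸ Submodule.mem_top)
          exact h1.trans h2.symm⟩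
      exact extVanish_subsingleton
    · obtain ⟨w, hnot, hw⟩ := exists_fixed hP W hW htop
      refine extVanish_middle (step_shortExact (A := A) (M := M) hpM W hW w hw hnot) ?_ hMM
      exact ih _ (left_lt_sup.2 (by rwa [Submodule.span_singleton_le_iff_mem])) _

/-- The whole space of maps is coinduced from the restriction. -/
noncomputable def annBotEquiv [Fintype P] [DecidableEq P]
    (M : ModuleCat.{u} (MonoidAlgebra A P)) (hpM : ∀ m : M, p • m = 0) :
    ann (A := A) (M : Type u) (⊥ : Submodule (ZMod p) (P → ZMod p)) stable_bot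
      ≃ₗ[MonoidAlgebra A P] Co P (res M) :=
  LinearEquiv.ofBijective
    (mkLinear
      ({ toFun := fun F h => (el (A := A) h • F.1.app (Pi.single h 1) : M)
         map_zero' := funext fun h => smul_zero (el (A := A) h)
         map_add' := fun F G => funext fun h => smul_add (el (A := A) h) _ _ } :
        ann (A := A) (M : Type u) (⊥ : Submodule (ZMod p) (P → ZMod p)) stable_bot
          →+ Co P (res M))
      (fun g F => funext fun h => by
        rw [co_el_smul]
        show el (A := A) h • (el (A := A) g • F.1).app (Pi.single h 1) =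
          el (A := A) (h * g) • F.1.app (Pi.single (h * g) 1)
        rw [tm_el_smul, ← mul_smul, el_mul]
        congr 2
        funext x
        show (Pi.single h 1 : P → ZMod p) (x * g⁻¹) = (Pi.single (h * g) 1 : P → ZMod p) x
        simp [Pi.single_apply, mul_inv_eq_iff_eq_mul])
      (fun a F => funext fun h => by
        rw [co_sc_smul]
        show el (A := A) h • (sc (P := P) a • F.1).app (Pi.single h 1) =
          sc (P := P) a • el (A := A) h • F.1.app (Pi.single h 1)
        rw [tm_sc_smul, ← mul_smul, ← mul_smul, el_mul_sc]))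
    (by
      refine ⟨fun F G hFG => Subtype.ext <| AddMonoidHom.functions_ext M _ _ fun h c => ?_,
        fun f => ?_⟩
      · have h1 := congrArg (fun t : M => el (A := A) h⁻¹ • t) (congrFun hFG h)
        change el (A := A) h⁻¹ • el (A := A) h • F.1.app (Pi.single h 1) =
          el (A := A) h⁻¹ • el (A := A) h • G.1.app (Pi.single h 1) at h1
        rw [← mul_smul, ← mul_smul, el_mul, inv_mul_cancel, el_one, one_smul, one_smul] at h1
        show F.1.app (Pi.single h c) = G.1.app (Pi.single h c)
        have hc : (Pi.single h c : P → ZMod p) = c • Pi.single h 1 := by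
          rw [← Pi.single_smul, smul_eq_mul, mul_one]
        rw [hc, map_smul_zmod, map_smul_zmod, h1]
      · choose φ hφ using fun h : P =>
          exists_hom_one (p := p) (M := (M : Type u)) (el (A := A) h⁻¹ • (f h : M)) (hpM _)
        refine ⟨⟨∑ h : P, (φ h).comp (Pi.evalAddMonoidHom (fun _ => ZMod p) h), fun v hv => ?_⟩,
          funext fun g => ?_⟩
        · rw [Submodule.mem_bot] at hv
          rw [hv, map_zero]
        · show el (A := A) g • (∑ h : P, (φ h).comp (Pi.evalAddMonoidHom (fun _ => ZMod p) h) :
            (P → ZMod p) →+ M) (Pi.single g 1) = f g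
          rw [AddMonoidHom.finsetSum_apply, Finset.sum_eq_single g]
          · show el (A := A) g • φ g ((Pi.single g 1 : P → ZMod p) g) = f g
            rw [Pi.single_eq_same, hφ]
            exact (mul_smul _ _ (f g : M)).symm.trans
              (by rw [el_mul, mul_inv_cancel, el_one, one_smul])
          · intro b _ hb
            show φ b ((Pi.single g 1 : P → ZMod p) b) = 0
            rw [Pi.single_eq_of_ne hb, map_zero]
          · simp)

/-- A finitely generated module over the group algebra is finitely generated over the base. -/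
theorem finite_res [Fintype P] (M : ModuleCat.{u} (MonoidAlgebra A P))
    [Module.Finite (MonoidAlgebra A P) M] : Module.Finite A (res M) := by
  obtain ⟨n, f, hf⟩ := Module.Finite.exists_fin' (MonoidAlgebra A P) M
  let b : Fin n × P → res M := fun x => (el (A := A) x.2 • f (Pi.single x.1 1) : M)
  refine Module.Finite.of_surjective (Fintype.linearCombination A b) fun m => ?_
  obtain ⟨r, hr⟩ := hf (m : M)
  refine ⟨fun x => (r x.1).coeff x.2, ?_⟩
  rw [Fintype.linearCombination_apply]
  show ∑ x : Fin n × P, sc (P := P) ((r x.1).coeff x.2) • el (A := A) x.2 • f (Pi.single x.1 1)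
    = (m : M)
  rw [Fintype.sum_prod_type, ← hr]
  conv_rhs => rw [← Finset.univ_sum_single r, map_sum]
  refine Finset.sum_congr rfl fun i _ => ?_
  have hi : ∑ h : P, single h ((r i).coeff h) = r i := by
    classical
    ext h
    simp [coeff_sum]
  conv_rhs => rw [show (Pi.single i (r i) : Fin n → MonoidAlgebra A P) = r i • Pi.single i 1 by
    rw [← Pi.single_smul, smul_eq_mul, mul_one], map_smul, ← hi, Finset.sum_smul]
  refine Finset.sum_congr rfl fun h _ => ?_
  rw [← mul_smul, ← single_eq_sc_mul_el]

theorem ar_ascends (hp : (p : A) = 0) (hP : IsPGroup p P) (hA : ARProperty A) :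
    ARProperty (MonoidAlgebra A P) := by
  intro M hfin hMM hMR
  classical
  have := Fintype.ofFinite P
  have hpM : ∀ m : M, p • m = 0 := by
    intro m
    rw [← Nat.cast_smul_eq_nsmul (MonoidAlgebra A P), ← map_natCast (sc (A := A) (P := P)), hp,
      map_zero, zero_smul]
  have hann := extVanish_ann hP M hpM hMM
  have hself : ExtVanish (res M) (res M) :=
    extVanish_res (extVanish_congr (annBotEquiv M hpM).toModuleIso (hann ⊥ stable_bot))
  have hring : ExtVanish (res M) (ModuleCat.of A A) :=
    extVanish_res (extVanish_congr (LinearEquiv.toModuleIso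
      (coEquiv (A := A) (P := P))).symm hMR)
  have hproj : Module.Projective A (res M) := hA _ (finite_res M) hself hring
  have : Projective (res M) := (IsProjective.iff_projective (R := A) (res M : ModuleCat.{u} A)).1 hproj
  -- the trace from maps to the value at a constant function has a section
  let c : P → ZMod p := fun _ => 1
  have hc : ∀ g, sh g c - c ∈ (⊥ : Submodule (ZMod p) (P → ZMod p)) := fun g => by
    rw [Submodule.mem_bot, sub_eq_zero]; rfl
  have hc0 : c ∉ (⊥ : Submodule (ZMod p) (P → ZMod p)) := fun h =>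
    one_ne_zero (α := ZMod p) (congrFun ((Submodule.mem_bot _).1 h) 1)
  obtain ⟨s, hs⟩ := exists_section (step_shortExact (A := A) (M := M) hpM ⊥ stable_bot c hc hc0)
    (hann _ _ 1 le_rfl)
  let e : res M ⟶ res M := ModuleCat.ofHom (X := res M) (Y := res M)
    { toFun := fun m => ((s.hom (m : M)).1.app (Pi.single 1 1) : M)
      map_add' := fun m n => by
        exact (congrArg (fun t => (Subtype.val t).app (Pi.single 1 1))
          (s.hom.map_add (m : M) (n : M))).trans (tm_add_app _ _ _)
      map_smul' := fun a m => by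
        exact (congrArg (fun t => (Subtype.val t).app (Pi.single 1 1))
          (s.hom.map_smul (sc (P := P) a) (m : M))).trans (tm_sc_smul a _ _) }
  have he : ∀ m : M, ∑ h : P, el (A := A) h⁻¹ • (e.hom ((el (A := A) h • m : M) : res M) : M) = m := by
    intro m
    have h1 : ((s.hom m).1.app c : M) = m := congrArg (fun t : M ⟶ M => t.hom m) hs
    refine Eq.trans ?_ h1
    have hcs : c = ∑ h : P, Pi.single h (1 : ZMod p) := by
      funext x
      simp [c, Finset.sum_apply, Pi.single_apply]
    refine Eq.trans ?_ ((congrArg (fun v => ((s.hom m).1.app v : M)) hcs).trans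
      (map_sum (s.hom m).1.app _ _)).symm
    refine Finset.sum_congr rfl fun h _ => ?_
    show el (A := A) h⁻¹ • ((s.hom (el (A := A) h • m)).1.app (Pi.single 1 1) : M) = _
    refine (congrArg (fun t => el (A := A) h⁻¹ • ((Subtype.val t).app (Pi.single 1 1) : M))
      (s.hom.map_smul (el (A := A) h) m)).trans ?_
    show el (A := A) h⁻¹ • (el (A := A) h • (s.hom m).1).app (Pi.single 1 1) = _
    rw [tm_el_smul, ← mul_smul, el_mul, inv_mul_cancel, el_one, one_smul]
    congr 1
    funext x
    show (Pi.single 1 1 : P → ZMod p) (x * h⁻¹) = (Pi.single h 1 : P → ZMod p) x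
    simp [Pi.single_apply, mul_inv_eq_one]
  refine (IsProjective.iff_projective M).2 ⟨fun {Y Z} f q => ?_⟩
  intro hq
  let F := ModuleCat.restrictScalars (sc (A := A) (P := P))
  have : Epi (F.map q) := (ModuleCat.epi_iff_surjective _).2 ((ModuleCat.epi_iff_surjective q).1 hq)
  let l : res M ⟶ res Y := Projective.factorThru (F.map f) (F.map q)
  have hl : ∀ x : M, q.hom (l.hom x : Y) = f.hom x := fun x =>
    congrArg (fun t : res M ⟶ res Z => t.hom x) (Projective.factorThru_comp (F.map f) (F.map q))
  let τ : M → P → Y := fun m h => el (A := A) h⁻¹ • (l.hom (e.hom (el (A := A) h • m : M)) : Y)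
  have hadd : ∀ (m n : M) (h : P), τ (m + n) h = τ m h + τ n h := by
    intro m n h
    show el (A := A) h⁻¹ • (l.hom (e.hom (el (A := A) h • (m + n) : M)) : Y) = _
    rw [smul_add]
    exact (congrArg (fun t : res Y => el (A := A) h⁻¹ • (t : Y))
      ((congrArg l.hom (e.hom.map_add _ _)).trans (l.hom.map_add _ _))).trans (smul_add _ _ _)
  refine ⟨ModuleCat.ofHom (mkLinear (AddMonoidHom.mk' (fun m => ∑ h : P, τ m h) ?_) ?_ ?_), ?_⟩
  · intro m n
    rw [← Finset.sum_add_distrib]
    exact Finset.sum_congr rfl fun h _ => hadd m n h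
  · intro g m
    show ∑ h : P, τ (el (A := A) g • m) h = el (A := A) g • ∑ h : P, τ m h
    rw [Finset.smul_sum, ← Equiv.sum_comp (Equiv.mulRight g) fun h => el (A := A) g • τ m h]
    refine Finset.sum_congr rfl fun h _ => ?_
    show el (A := A) h⁻¹ • (l.hom (e.hom (el (A := A) h • el (A := A) g • m : M)) : Y) =
      el (A := A) g • el (A := A) (h * g)⁻¹ • (l.hom (e.hom (el (A := A) (h * g) • m : M)) : Y)
    rw [← mul_smul, ← mul_smul, el_mul, el_mul, mul_inv_rev, mul_inv_cancel_left]
  · intro a m
    show ∑ h : P, τ (sc (P := P) a • m) h = sc (P := P) a • ∑ h : P, τ m h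
    rw [Finset.smul_sum]
    refine Finset.sum_congr rfl fun h _ => ?_
    show el (A := A) h⁻¹ • (l.hom (e.hom (el (A := A) h • sc (P := P) a • m : M)) : Y) = _
    rw [← mul_smul (el (A := A) h), el_mul_sc, mul_smul]
    refine (congrArg (fun t : res Y => el (A := A) h⁻¹ • (t : Y))
      ((congrArg l.hom (e.hom.map_smul a _)).trans (l.hom.map_smul a _))).trans ?_
    show el (A := A) h⁻¹ • sc (P := P) a • (_ : Y) = sc (P := P) a • el (A := A) h⁻¹ • _
    exact (mul_smul _ _ _).symm.trans
      ((congrArg (· • _) (el_mul_sc h⁻¹ a)).trans (mul_smul _ _ _))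
  · ext m
    show q.hom (∑ h : P, τ m h) = f.hom m
    conv_rhs => rw [← he m]
    refine (map_sum q.hom _ _).trans (Eq.trans ?_ (map_sum f.hom _ _).symm)
    refine Finset.sum_congr rfl fun h _ => ?_
    show q.hom (el (A := A) h⁻¹ • _) = f.hom (el (A := A) h⁻¹ • _)
    exact ((q.hom.map_smul _ _).trans (congrArg (fun z : Z => el (A := A) h⁻¹ • z) (hl _))).trans
      (f.hom.map_smul _ _).symm

end Vale.Agent.P195
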