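import Vale.Agent.P195.MapsBase

/-! The length three resolution of the forms of degree `n`, written uniformly in `n`.
`c` is the parameter `n + 1`. A map out of a free term is given by the image of a generator
tensor a polynomial, as an element of `Op ⊗ Pol`. -/

noncomputable section

namespace Vale.Agent.P195.Maps

open MvPolynomial
open scoped TensorProduct

instance instAddCommGroupOT : AddCommGroup OT := TensorProduct.addCommGroup

instance : AddCommGroup (Pol →ₗ[ℂ] OT) :=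
  @LinearMap.addCommGroup ℂ ℂ Pol OT _ _ _ (inferInstanceAs (AddCommGroup OT)) _ _ _

theorem neg_ot (u : Op) (p : Pol) : (-u) ⊗ₜ[ℂ] p = -(u ⊗ₜ[ℂ] p) := TensorProduct.neg_tmul u p

theorem smul_ot (c : ℂ) (u : Op) (p : Pol) : (c • u) ⊗ₜ[ℂ] p = c • (u ⊗ₜ[ℂ] p) :=
  (TensorProduct.smul_tmul' c u p).symm

/-- `p ↦ u ⊗ p`. -/
def tl (u : Op) : Pol →ₗ[ℂ] OT := TensorProduct.mk ℂ Op Pol u

/-- Left multiplication of operators on `OT`. -/
def lm : Op →ₗ[ℂ] Module.End ℂ OT :=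
  (LinearMap.rTensorHom Pol : Module.End ℂ Op →ₗ[ℂ] Module.End ℂ OT) ∘ₗ LinearMap.mul ℂ Op

/-- Composition with a map given on generators. -/
def bind (F : Pol →ₗ[ℂ] OT) : OT →ₗ[ℂ] OT := TensorProduct.lift (lm.compl₂ F)

@[simp] theorem tl_apply (u : Op) (p : Pol) : tl u p = u ⊗ₜ p := rfl

@[simp] theorem lm_tmul (u v : Op) (p : Pol) : lm u (v ⊗ₜ p) = (u * v) ⊗ₜ p := by
  simp [lm, LinearMap.rTensorHom]

@[simp] theorem bind_tmul (F : Pol →ₗ[ℂ] OT) (u : Op) (p : Pol) :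
    bind F (u ⊗ₜ p) = lm u (F p) := by
  simp [bind]

/-- First differential. -/
def D1 (i k : Fin 2) : Pol →ₗ[ℂ] OT := tl (a i k) - tl 1 ∘ₗ a i k

/-- Second differential on the negative lattice; `l` is the lattice coordinate. -/
def D2m (c : ℂ) (i k l : Fin 2) : Pol →ₗ[ℂ] OT :=
  tl (δ l k • E - a k l) ∘ₗ d i - (c * δ l k) • (tl 1 ∘ₗ d i) + (c * δ i k) • (tl 1 ∘ₗ d l)

/-- Second differential on the positive lattice. -/
def D2p (c : ℂ) (i k l : Fin 2) : Pol →ₗ[ℂ] OT :=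
  tl (δ i l • (E + 1) - a l i) ∘ₗ x k - (c * δ i l) • (tl 1 ∘ₗ x k)
    + (c * δ i k) • (tl 1 ∘ₗ x l)

/-- Third differential, positive component, as a row. -/
def D3p (c : ℂ) (l : Fin 2) : Pol →ₗ[ℂ] OT :=
  ∑ m, tl (a m l - (c * δ m l) • 1) ∘ₗ d m

/-- Third differential, negative component, as a row. -/
def D3m (c : ℂ) (l : Fin 2) : Pol →ₗ[ℂ] OT :=
  -∑ m, tl (a l m - ((c - 1) * δ l m) • 1) ∘ₗ x m

theorem euler_a {n : ℕ} {q : Pol} (hq : q.IsHomogeneous (n + 1)) (k : Fin 2) :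
    a 0 k (d 0 q) + a 1 k (d 1 q) = (n : ℂ) • d k q := by
  have h := euler (hq.pderiv (i := k))
  rw [Nat.add_sub_cancel] at h
  fin_cases k <;> simpa [a, pd_comm] using h

theorem a_x_sum {n : ℕ} {t : Pol} (ht : t.IsHomogeneous n) (i : Fin 2) :
    a i 0 (x 0 t) + a i 1 (x 1 t) = ((n : ℂ) + 2) • x i t := by
  have h := congrArg (X i * ·) (euler ht)
  simp only [mul_smul_comm] at h
  fin_cases i <;>
    simp [a, pderiv_X, add_smul, two_smul] at h ⊢ <;> linear_combination h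

theorem dd_minus {n : ℕ} {q : Pol} (hq : q.IsHomogeneous (n + 1)) (l : Fin 2) :
    ∑ i, ∑ k, bind (D1 i k) (D2m ((n : ℂ) + 1) i k l q) = 0 := by
  have h1 : ∀ i, ∑ k, ((δ l k • E - a k l) * a i k) ⊗ₜ[ℂ] d i q
      = (a i l - δ i l • E) ⊗ₜ[ℂ] d i q := fun i => by
    rw [← TensorProduct.sum_tmul, colm_mul_a]
  have h2 : ∀ k, ∑ i, (δ l k • E - a k l) ⊗ₜ[ℂ] a i k (d i q)
      = (δ l k • E - a k l) ⊗ₜ[ℂ] ((n : ℂ) • d k q) := fun k => by
    rw [← TensorProduct.tmul_sum, Fin.sum_univ_two, euler_a hq]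
  have h3 : ∀ k, ∑ i, (1 : Op) ⊗ₜ[ℂ] a i k (d i q) = (1 : Op) ⊗ₜ[ℂ] ((n : ℂ) • d k q) :=
    fun k => by rw [← TensorProduct.tmul_sum, Fin.sum_univ_two, euler_a hq]
  have h4 : ∀ k, (1 : Op) ⊗ₜ[ℂ] a 0 0 (d k q) + (1 : Op) ⊗ₜ[ℂ] a 1 1 (d k q)
      = (1 : Op) ⊗ₜ[ℂ] ((n : ℂ) • d k q) := fun k => by
    have h := euler_op (hq.pderiv (i := k))
    rw [Nat.add_sub_cancel] at h
    rw [← TensorProduct.tmul_add]
    exact congrArg _ h
  have hE : ∀ p : Pol, E ⊗ₜ[ℂ] p = a 0 0 ⊗ₜ[ℂ] p + a 1 1 ⊗ₜ[ℂ] p := fun p =>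
    TensorProduct.add_tmul _ _ _
  have h10 := h1 0
  have h11 := h1 1
  have h20 := h2 0
  have h21 := h2 1
  have h30 := h3 0
  have h31 := h3 1
  have h40 := h4 0
  have h41 := h4 1
  fin_cases l <;>
    simp [D1, D2m, δ, Fin.sum_univ_two, TensorProduct.sub_tmul, neg_ot,
      TensorProduct.tmul_smul, sub_mul,
      -x_apply, -d_apply] at h10 h11 h20 h21 h30 h31 h40 h41 hE ⊢
  · linear_combination (norm := module) h10 + h11 - h20 - h21
      + ((n : ℂ) + 1) • h30 - ((n : ℂ) + 1) • h40 - ((n : ℂ) + 1) • hE (d 0 q)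
  · linear_combination (norm := module) h10 + h11 - h20 - h21
      + ((n : ℂ) + 1) • h31 - ((n : ℂ) + 1) • h41 - ((n : ℂ) + 1) • hE (d 1 q)

theorem dd_plus {n : ℕ} {t : Pol} (ht : t.IsHomogeneous n) (l : Fin 2) :
    ∑ i, ∑ k, bind (D1 i k) (D2p ((n : ℂ) + 2) i k l t) = 0 := by
  have h1 : ∀ k, ∑ i, ((δ i l • (E + 1) - a l i) * a i k) ⊗ₜ[ℂ] x k t = 0 := fun k => by
    rw [← TensorProduct.sum_tmul, colp_mul_a, TensorProduct.zero_tmul]
  have h2 : ∀ i, ∑ k, (δ i l • (E + 1) - a l i) ⊗ₜ[ℂ] a i k (x k t)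
      = (δ i l • (E + 1) - a l i) ⊗ₜ[ℂ] (((n : ℂ) + 2) • x i t) := fun i => by
    rw [← TensorProduct.tmul_sum, Fin.sum_univ_two, a_x_sum ht]
  have h3 : ∀ i, ∑ k, (1 : Op) ⊗ₜ[ℂ] a i k (x k t)
      = (1 : Op) ⊗ₜ[ℂ] (((n : ℂ) + 2) • x i t) := fun i => by
    rw [← TensorProduct.tmul_sum, Fin.sum_univ_two, a_x_sum ht]
  have h4 : ∀ k, (1 : Op) ⊗ₜ[ℂ] a 0 0 (x k t) + (1 : Op) ⊗ₜ[ℂ] a 1 1 (x k t)
      = (1 : Op) ⊗ₜ[ℂ] (((n : ℂ) + 1) • x k t) := fun k => by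
    have h := euler_op ((isHomogeneous_X ℂ k).mul ht)
    rw [Nat.cast_add, Nat.cast_one, add_comm (1 : ℂ)] at h
    rw [← TensorProduct.tmul_add]
    exact congrArg _ h
  have hE : ∀ p : Pol, E ⊗ₜ[ℂ] p = a 0 0 ⊗ₜ[ℂ] p + a 1 1 ⊗ₜ[ℂ] p := fun p =>
    TensorProduct.add_tmul _ _ _
  have h10 := h1 0
  have h11 := h1 1
  have h20 := h2 0
  have h21 := h2 1
  have h30 := h3 0
  have h31 := h3 1
  have h40 := h4 0
  have h41 := h4 1
  fin_cases l <;>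
    simp [D1, D2p, δ, Fin.sum_univ_two, TensorProduct.sub_tmul, neg_ot,
      TensorProduct.add_tmul, TensorProduct.tmul_smul, sub_mul,
      add_mul, -x_apply, -d_apply] at h10 h11 h20 h21 h30 h31 h40 h41 hE ⊢
  · linear_combination (norm := module) h10 + h11 - h20 - h21
      + ((n : ℂ) + 2) • h30 - ((n : ℂ) + 2) • h40 - ((n : ℂ) + 2) • hE (x 0 t)
  · linear_combination (norm := module) h10 + h11 - h20 - h21
      + ((n : ℂ) + 2) • h31 - ((n : ℂ) + 2) • h41 - ((n : ℂ) + 2) • hE (x 1 t)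

theorem dd_three {n : ℕ} {p : Pol} (hp : p.IsHomogeneous n) (i k : Fin 2) :
    ∑ l, (bind (D2p ((n : ℂ) + 1) i k l) (D3p ((n : ℂ) + 1) l p)
      + bind (D2m ((n : ℂ) + 1) i k l) (D3m ((n : ℂ) + 1) l p)) = 0 := by
  have hP : ∀ m, ∑ l, (a m l * (δ i l • (E + 1) - a l i)) ⊗ₜ[ℂ] x k (d m p) = 0 := fun m => by
    rw [← TensorProduct.sum_tmul, rowp_mul_colp, TensorProduct.zero_tmul]
  have hM : ∀ m, ∑ l, ((a l m + δ l m • 1) * (δ l k • E - a k l)) ⊗ₜ[ℂ] d i (x m p) = 0 :=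
    fun m => by rw [← TensorProduct.sum_tmul, rowm_mul_colm, TensorProduct.zero_tmul]
  have hEu : (1 : Op) ⊗ₜ[ℂ] x 0 (d 0 p) + (1 : Op) ⊗ₜ[ℂ] x 1 (d 1 p)
      = (1 : Op) ⊗ₜ[ℂ] ((n : ℂ) • p) := by
    rw [← TensorProduct.tmul_add]
    exact congrArg _ (euler hp)
  have hE : E ⊗ₜ[ℂ] p = a 0 0 ⊗ₜ[ℂ] p + a 1 1 ⊗ₜ[ℂ] p := TensorProduct.add_tmul _ _ _
  have hP0 := hP 0
  have hP1 := hP 1
  have hM0 := hM 0
  have hM1 := hM 1
  fin_cases i <;> fin_cases k <;>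
    simp [D2p, D2m, D3p, D3m, δ, Fin.sum_univ_two, TensorProduct.sub_tmul,
      TensorProduct.add_tmul, TensorProduct.tmul_add,
      TensorProduct.tmul_smul, smul_ot, sub_mul, add_mul, mul_add, mul_sub, d_x_apply, -x_apply,
      -d_apply] at hP0 hP1 hM0 hM1 hEu ⊢
  · linear_combination (norm := module) hP0 + hP1 - hM0 - hM1
      - ((n : ℂ) + 1) • hEu + ((n : ℂ) + 1) • hE
  · linear_combination (norm := module) hP0 + hP1 - hM0 - hM1
  · linear_combination (norm := module) hP0 + hP1 - hM0 - hM1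
  · linear_combination (norm := module) hP0 + hP1 - hM0 - hM1
      - ((n : ℂ) + 1) • hEu + ((n : ℂ) + 1) • hE

theorem trace_plus {n : ℕ} {p : Pol} (hp : p.IsHomogeneous n) (l : Fin 2) :
    ∑ m, (d m * (a m l - (((n : ℂ) + 1) * δ m l) • 1)) p = 0 := by
  rcases n with _ | n
  · have hp0 : ∀ i, pderiv i p = 0 := fun i => by
      rw [← totalDegree_zero_iff_isHomogeneous, totalDegree_eq_zero_iff_eq_C] at hp
      rw [hp, pderiv_C]
    fin_cases l <;> simp [a, δ, Fin.sum_univ_two, hp0]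
  · have h := euler_a hp l
    fin_cases l <;> simp [a, δ, Fin.sum_univ_two, d_x_apply, -x_apply, -d_apply] at h ⊢ <;>
      simp [pderiv_X, pd_comm] at h ⊢ <;> linear_combination (norm := module) h

theorem trace_minus {n : ℕ} {p : Pol} (hp : p.IsHomogeneous n) (l : Fin 2) :
    ∑ m, (x m * (a l m - ((n : ℂ) * δ l m) • 1)) p = 0 := by
  have h := euler hp
  fin_cases l <;> simp [a, δ, Fin.sum_univ_two, mul_sub, smul_eq_C_mul] at h ⊢
  · linear_combination (X 0 : Pol) * h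
  · linear_combination (X 1 : Pol) * h

theorem trace_shift {n : ℕ} {p : Pol} (hp : p.IsHomogeneous n) :
    ∑ m, d m (x m p) = ((n : ℂ) + 2) • p := by
  have h := euler hp
  simp [Fin.sum_univ_two, pderiv_X, smul_eq_C_mul, map_add] at h ⊢
  rw [map_ofNat]
  linear_combination h

end Vale.Agent.P195.Maps
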