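import Vale.Agent.P195.Weyl.Basic
import Mathlib.Algebra.MvPolynomial.PDeriv
import Mathlib.RingTheory.MvPolynomial.EulerIdentity
import Mathlib.Data.Complex.Basic
import Mathlib.Algebra.Module.LinearMap.End
import Mathlib.LinearAlgebra.TensorProduct.Basic
import Mathlib.Tactic.Ring
import Mathlib.Tactic.LinearCombination
import Mathlib.Tactic.Module
import Mathlib.Tactic.FinCases

/-! Elementary operators on polynomials in two variables. -/

noncomputable section

namespace Vale.Agent.P195.Maps

open MvPolynomial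
open scoped TensorProduct

export Weyl (Pol Op x d)

/-- Operators with polynomial multiplicities. -/
abbrev OT : Type := Op ⊗[ℂ] Pol

/-- The operators `x i * d k`. -/
def a (i k : Fin 2) : Op := x i * d k

/-- The Euler operator. -/
def E : Op := a 0 0 + a 1 1

/-- Kronecker delta as a scalar. -/
def δ (i k : Fin 2) : ℂ := if i = k then 1 else 0

@[simp] theorem x_apply (i : Fin 2) (p : Pol) : x i p = X i * p := Weyl.x_apply i p

@[simp] theorem d_apply (i : Fin 2) (p : Pol) : d i p = pderiv i p := Weyl.d_apply i p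

theorem pd_comm (p : Pol) : pderiv 1 (pderiv 0 p) = pderiv 0 (pderiv 1 p) := by
  induction p using MvPolynomial.induction_on with
  | C c => simp
  | add p q hp hq => simp [hp, hq]
  | mul_X p i hp =>
      fin_cases i <;> simp [pderiv_X, hp, add_comm]

/-- Euler's identity on forms of degree `n`. -/
theorem euler {n : ℕ} {p : Pol} (hp : p.IsHomogeneous n) :
    X 0 * pderiv 0 p + X 1 * pderiv 1 p = (n : ℂ) • p := by
  have h := hp.sum_X_mul_pderiv
  rw [Fin.sum_univ_two] at h
  rw [h, Nat.cast_smul_eq_nsmul]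

theorem euler_op {n : ℕ} {p : Pol} (hp : p.IsHomogeneous n) : E p = (n : ℂ) • p := by
  simpa [E, a] using euler hp

theorem a_mul_x (i k m : Fin 2) : a i k * x m = x m * a i k + δ k m • x i := by
  refine LinearMap.ext fun p => ?_
  fin_cases i <;> fin_cases k <;> fin_cases m <;>
    simp [a, δ, pderiv_X] <;> ring

theorem E_mul_x (m : Fin 2) : E * x m = x m * E + x m := by
  refine LinearMap.ext fun p => ?_
  fin_cases m <;> simp [E, a, pderiv_X] <;> ring

theorem d_mul_x (i k : Fin 2) : d i * x k = x k * d i + δ i k • (1 : Op) := by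
  refine LinearMap.ext fun p => ?_
  fin_cases i <;> fin_cases k <;> simp [δ, pderiv_X] <;> ring

theorem colm_mul_a (l i : Fin 2) :
    ∑ k, (δ l k • E - a k l) * a i k = a i l - δ i l • E := by
  refine LinearMap.ext fun p => ?_
  rw [Fin.sum_univ_two]
  fin_cases l <;> fin_cases i <;>
    simp [E, a, δ, pderiv_X, pd_comm] <;> ring

theorem colp_mul_a (l k : Fin 2) :
    ∑ i, (δ i l • (E + 1) - a l i) * a i k = 0 := by
  refine LinearMap.ext fun p => ?_
  rw [Fin.sum_univ_two]
  fin_cases l <;> fin_cases k <;>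
    simp [E, a, δ, pderiv_X, pd_comm] <;> ring

theorem rowp_mul_colp (m i : Fin 2) :
    ∑ l, a m l * (δ i l • (E + 1) - a l i) = 0 := by
  refine LinearMap.ext fun p => ?_
  rw [Fin.sum_univ_two]
  fin_cases m <;> fin_cases i <;>
    simp [E, a, δ, pderiv_X, pd_comm] <;> ring

theorem rowm_mul_colm (m k : Fin 2) :
    ∑ l, (a l m + δ l m • 1) * (δ l k • E - a k l) = 0 := by
  refine LinearMap.ext fun p => ?_
  rw [Fin.sum_univ_two]
  fin_cases m <;> fin_cases k <;>
    simp [E, a, δ, pderiv_X, pd_comm] <;> ring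

theorem d_x_apply (i m : Fin 2) (p : Pol) : d i (x m p) = δ i m • p + x m (d i p) := by
  have h := LinearMap.congr_fun (d_mul_x i m) p
  simpa [add_comm] using h

end Vale.Agent.P195.Maps
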