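import Mathlib

/-!
P195: vanishing of `Ext` read from one projective cover.
-/

namespace Vale.Agent.P195

open CategoryTheory Abelian

universe u

variable {R : Type u} [Ring R]

/-- All positive `Ext` groups from `M` to `N` vanish. -/
def ExtVanish (M N : ModuleCat.{u} R) : Prop :=
  ∀ i : ℕ, 1 ≤ i → Subsingleton (Ext M N i)

variable {S : ShortComplex (ModuleCat.{u} R)} {X : ModuleCat.{u} R}

theorem extend_of_ext_one (h : S.ShortExact) (h1 : Subsingleton (Ext S.X₃ X 1))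
    (φ : S.X₁ ⟶ X) : ∃ ψ : S.X₂ ⟶ X, S.f ≫ ψ = φ := by
  obtain ⟨x, hx⟩ := Ext.contravariant_sequence_exact₁ h X (Ext.mk₀ φ) (n₁ := 1) rfl
    (Subsingleton.elim _ _)
  obtain ⟨ψ, rfl⟩ := (Ext.mk₀_bijective _ _).2 x
  refine ⟨ψ, (Ext.mk₀_bijective _ _).1 ?_⟩
  rw [← Ext.mk₀_comp_mk₀]
  exact hx

theorem ext_one_of_extend (h : S.ShortExact) [Projective S.X₂]
    (hφ : ∀ φ : S.X₁ ⟶ X, ∃ ψ : S.X₂ ⟶ X, S.f ≫ ψ = φ) : Subsingleton (Ext S.X₃ X 1) := by
  refine subsingleton_of_forall_eq 0 fun x => ?_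
  obtain ⟨y, rfl⟩ := Ext.contravariant_sequence_exact₃ h X x (Ext.eq_zero_of_projective _)
    (n₀ := 0) rfl
  obtain ⟨φ, rfl⟩ := (Ext.mk₀_bijective _ _).2 y
  obtain ⟨ψ, rfl⟩ := hφ φ
  rw [← Ext.mk₀_comp_mk₀, ← Ext.comp_assoc_of_second_deg_zero, h.extClass_comp, Ext.zero_comp]

theorem ext_pred_of_ext (h : S.ShortExact) [Projective S.X₂] (n : ℕ)
    (hn : Subsingleton (Ext S.X₃ X (n + 1 + 1))) : Subsingleton (Ext S.X₁ X (n + 1)) := by
  refine subsingleton_of_forall_eq 0 fun x => ?_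
  obtain ⟨y, rfl⟩ := Ext.contravariant_sequence_exact₁ h X x (add_comm 1 (n + 1))
    (Subsingleton.elim _ _)
  rw [Ext.eq_zero_of_projective y, Ext.comp_zero]

theorem ext_succ_of_ext (h : S.ShortExact) [Projective S.X₂] (n : ℕ)
    (hn : Subsingleton (Ext S.X₁ X (n + 1))) : Subsingleton (Ext S.X₃ X (n + 1 + 1)) := by
  refine subsingleton_of_forall_eq 0 fun x => ?_
  obtain ⟨y, rfl⟩ := Ext.contravariant_sequence_exact₃ h X x
    (Ext.eq_zero_of_projective _) (add_comm 1 (n + 1))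
  rw [Subsingleton.elim y 0, Ext.comp_zero]

theorem extVanish_congr {M N N' : ModuleCat.{u} R} (e : N ≅ N') (h : ExtVanish M N) :
    ExtVanish M N' := by
  intro i hi
  refine subsingleton_of_forall_eq 0 fun x => ?_
  have := h i hi
  rw [← x.comp_mk₀_id, ← e.inv_hom_id, ← Ext.mk₀_comp_mk₀,
    ← Ext.comp_assoc_of_second_deg_zero, Subsingleton.elim (x.comp _ _) 0, Ext.zero_comp]

theorem extVanish_middle {M : ModuleCat.{u} R} (h : S.ShortExact) (h1 : ExtVanish M S.X₁)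
    (h3 : ExtVanish M S.X₃) : ExtVanish M S.X₂ := by
  intro i hi
  have := h1 i hi
  have := h3 i hi
  refine subsingleton_of_forall_eq 0 fun x => ?_
  obtain ⟨y, rfl⟩ := Ext.covariant_sequence_exact₂ M h x (Subsingleton.elim _ _)
  rw [Subsingleton.elim y 0, Ext.zero_comp]

/-- A section of a surjection exists when the `Ext¹` group into its kernel vanishes. -/
theorem exists_section (h : S.ShortExact) (h1 : Subsingleton (Ext S.X₃ S.X₁ 1)) :
    ∃ s : S.X₃ ⟶ S.X₂, s ≫ S.g = 𝟙 _ := by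
  obtain ⟨x, hx⟩ := Ext.covariant_sequence_exact₃ S.X₃ h (Ext.mk₀ (𝟙 S.X₃)) (n₁ := 1) rfl
    (Subsingleton.elim _ _)
  obtain ⟨s, rfl⟩ := (Ext.mk₀_bijective _ _).2 x
  refine ⟨s, (Ext.mk₀_bijective _ _).1 ?_⟩
  rw [← Ext.mk₀_comp_mk₀]
  exact hx

end Vale.Agent.P195
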