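import Vale.Agent.P195.Main

/-!
P195: the Auslander-Reiten property passes from `A` to `A[x]/(x^n)` for every ring `A`.
The ring `A[x]/(x^n)` is described by a ring map from `A` and a central element `x` with
`x ^ n = 0` whose powers below `n` form a basis over `A`.
-/

namespace Vale.Agent.P195.Trunc

open CategoryTheory Abelian

universe u

/-- The data of a presentation of `B` as a truncated polynomial ring over `A`. -/
structure IsTrunc {A B : Type u} [Ring A] [Ring B] (ι : A →+* B) (x : B) (n : ℕ) : Prop where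
  central : ∀ b : B, x * b = b * x
  pow_eq : x ^ n = 0
  bij : Function.Bijective fun c : Fin n → A => ∑ j, ι (c j) * x ^ (j : ℕ)

variable {A B : Type u} [Ring A] [Ring B] {ι : A →+* B} {x : B} {n : ℕ}

/-- Restriction along the structure map. -/
noncomputable abbrev rs (ι : A →+* B) : ModuleCat.{u} B ⥤ ModuleCat.{u} A :=
  ModuleCat.restrictScalars ι

/-- Coextension along the structure map. -/
noncomputable abbrev cs (ι : A →+* B) : ModuleCat.{u} A ⥤ ModuleCat.{u} B :=
  ModuleCat.coextendScalars ι

/-- The value of an element of a coextension. -/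
noncomputable abbrev val {N : ModuleCat.{u} A} (f : (cs ι).obj N) :
    (rs ι).obj (ModuleCat.of B B) →ₗ[A] N :=
  ModuleCat.CoextendScalars.equiv ι N f

/-- The value of an element of a coinduced module, read in the module itself. -/
noncomputable def ev {M : ModuleCat.{u} B} (f : (cs ι).obj ((rs ι).obj M)) (b : B) : M := val f b

theorem ev_smul {M : ModuleCat.{u} B} (f : (cs ι).obj ((rs ι).obj M)) (r b : B) :
    ev (r • f) b = ev f (b * r) := rfl

theorem ev_add {M : ModuleCat.{u} B} (f g : (cs ι).obj ((rs ι).obj M)) (b : B) :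
    ev (f + g) b = ev f b + ev g b := rfl

theorem ev_sub {M : ModuleCat.{u} B} (f g : (cs ι).obj ((rs ι).obj M)) (b : B) :
    ev (f - g) b = ev f b - ev g b := rfl

theorem ev_zero {M : ModuleCat.{u} B} (f : (cs ι).obj ((rs ι).obj M)) : ev f 0 = 0 :=
  (val f).map_zero

theorem ev_sc {M : ModuleCat.{u} B} (f : (cs ι).obj ((rs ι).obj M)) (a : A) (b : B) :
    ev f (ι a * b) = ι a • ev f b :=
  (val f).map_smul a b

/-- The power basis. -/
noncomputable def basis (h : IsTrunc ι x n) :
    Module.Basis (Fin n) A ((rs ι).obj (ModuleCat.of B B)) :=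
  Module.Basis.ofEquivFun (LinearEquiv.ofBijective
    ({ toFun := fun c => ((∑ j, ι (c j) * x ^ (j : ℕ) : B) : (rs ι).obj (ModuleCat.of B B))
       map_add' := fun c d => by
        show (∑ j, ι ((c + d) j) * x ^ (j : ℕ) : B) =
          (∑ j, ι (c j) * x ^ (j : ℕ)) + ∑ j, ι (d j) * x ^ (j : ℕ)
        simp [add_mul, Finset.sum_add_distrib]
       map_smul' := fun a c => by
        show (∑ j, ι ((a • c) j) * x ^ (j : ℕ) : B) = ι a * ∑ j, ι (c j) * x ^ (j : ℕ)
        simp [Finset.mul_sum, mul_assoc] } :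
      (Fin n → A) →ₗ[A] (rs ι).obj (ModuleCat.of B B)) h.bij).symm

theorem basis_apply (h : IsTrunc ι x n) (j : Fin n) : basis h j = (x ^ (j : ℕ) : B) := by
  classical
  rw [basis, Module.Basis.coe_ofEquivFun, LinearEquiv.symm_symm]
  show (∑ i, ι ((Pi.single j 1 : Fin n → A) i) * x ^ (i : ℕ) : B) = x ^ (j : ℕ)
  rw [Finset.sum_eq_single j]
  · simp
  · intro i _ hi
    simp [Pi.single_eq_of_ne hi]
  · simp

theorem coext_ext (h : IsTrunc ι x n) {N : ModuleCat.{u} A} {f g : (cs ι).obj N}
    (H : ∀ j, j < n → val f (x ^ j : B) = val g (x ^ j : B)) : f = g := by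
  refine ModuleCat.CoextendScalars.ext ((basis h).ext fun j => ?_)
  rw [basis_apply h j]
  exact H j j.2

theorem exists_coext (h : IsTrunc ι x n) (N : ModuleCat.{u} A) (v : ℕ → N) :
    ∃ f : (cs ι).obj N, ∀ j, j < n → val f (x ^ j : B) = v j := by
  refine ⟨(ModuleCat.CoextendScalars.equiv ι N).symm ((basis h).constr ℕ fun j => v j),
    fun j hj => ?_⟩
  have e : (x ^ j : B) = basis h ⟨j, hj⟩ := (basis_apply h ⟨j, hj⟩).symm
  show val _ ((x ^ j : B) : (rs ι).obj (ModuleCat.of B B)) = _
  rw [e]
  exact (basis h).constr_basis ℕ (fun j : Fin n => v j) ⟨j, hj⟩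

theorem coev_ext (h : IsTrunc ι x n) {M : ModuleCat.{u} B} {f g : (cs ι).obj ((rs ι).obj M)}
    (H : ∀ j, j < n → ev f (x ^ j) = ev g (x ^ j)) : f = g :=
  coext_ext h H

theorem exists_coev (h : IsTrunc ι x n) (M : ModuleCat.{u} B) (v : ℕ → M) :
    ∃ f : (cs ι).obj ((rs ι).obj M), ∀ j, j < n → ev f (x ^ j) = v j :=
  exists_coext h ((rs ι).obj M) v

theorem cs_epi (h : IsTrunc ι x n) {E N : ModuleCat.{u} A} (e : E ⟶ N) [he : Epi e] :
    Epi ((cs ι).map e) := by
  rw [ModuleCat.epi_iff_surjective] at he ⊢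
  intro g
  choose v hv using fun j : ℕ => he (val g (x ^ j : B))
  obtain ⟨f, hf⟩ := exists_coext h E v
  refine ⟨f, coext_ext h fun j hj => ?_⟩
  show e.hom (val f (x ^ j : B)) = _
  rw [hf j hj]
  exact hv j

theorem projective_rs (h : IsTrunc ι x n) (F : ModuleCat.{u} B) [Projective F] :
    Projective ((rs ι).obj F) := by
  have : (cs ι).PreservesEpimorphisms := ⟨fun e _ => cs_epi h e⟩
  exact (ModuleCat.restrictCoextendScalarsAdj ι).map_projective _ inferInstance

omit [Ring A] in
theorem rs_shortExact {A : Type u} [Ring A] {ι : A →+* B}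
    {S : ShortComplex (ModuleCat.{u} B)} (h : S.ShortExact) :
    (S.map (rs ι)).ShortExact where
  exact := by
    rw [ShortComplex.ShortExact.moduleCat_exact_iff_function_exact]
    exact (ShortComplex.ShortExact.moduleCat_exact_iff_function_exact S).1 h.exact
  mono_f := (ModuleCat.mono_iff_injective _).2 h.moduleCat_injective_f
  epi_g := (ModuleCat.epi_iff_surjective _).2 h.moduleCat_surjective_g

theorem ext_rs (h : IsTrunc ι x n) (X : ModuleCat.{u} A) (i : ℕ) :
    ∀ M : ModuleCat.{u} B, Subsingleton (Ext M ((cs ι).obj X) (i + 1)) →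
      Subsingleton (Ext ((rs ι).obj M) X (i + 1)) := by
  induction i with
  | zero =>
    intro M hM
    have hS := M.shortExact_projectiveShortComplex
    have : Projective M.projectiveShortComplex.X₂ :=
      (IsProjective.iff_projective M.projectiveShortComplex.X₂).1 inferInstance
    have : Projective (M.projectiveShortComplex.map (rs ι)).X₂ :=
      projective_rs h M.projectiveShortComplex.X₂
    refine ext_one_of_extend (rs_shortExact hS) fun φ => ?_
    let adj := ModuleCat.restrictCoextendScalarsAdj ι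
    obtain ⟨ψ, hψ⟩ := extend_of_ext_one hS hM (adj.homEquiv _ _ φ)
    refine ⟨(adj.homEquiv _ _).symm ψ, ?_⟩
    show (rs ι).map M.projectiveShortComplex.f ≫ _ = φ
    rw [← adj.homEquiv_naturality_left_symm, hψ]
    exact (adj.homEquiv _ X).symm_apply_apply φ
  | succ i ih =>
    intro M hM
    have hS := M.shortExact_projectiveShortComplex
    have : Projective M.projectiveShortComplex.X₂ :=
      (IsProjective.iff_projective M.projectiveShortComplex.X₂).1 inferInstance
    have : Projective (M.projectiveShortComplex.map (rs ι)).X₂ :=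
      projective_rs h M.projectiveShortComplex.X₂
    exact ext_succ_of_ext (rs_shortExact hS) i (ih _ (ext_pred_of_ext hS i hM))

/-- Multiplication by the central element. -/
noncomputable def mulX (h : IsTrunc ι x n) (N : ModuleCat.{u} B) : End N :=
  ModuleCat.ofHom
    { toFun := fun m => x • m
      map_add' := fun m k => smul_add _ _ _
      map_smul' := fun b m => by
        show x • b • m = b • x • m
        rw [← mul_smul, ← mul_smul, h.central] }

theorem mulX_natural (h : IsTrunc ι x n) {N N' : ModuleCat.{u} B} (g : N ⟶ N') :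
    mulX h N ≫ g = g ≫ mulX h N' := by
  ext m
  exact g.hom.map_smul x m

theorem mulX_pow_apply (h : IsTrunc ι x n) (N : ModuleCat.{u} B) (k : ℕ) (m : N) :
    (mulX h N ^ k : End N).hom m = x ^ k • m := by
  induction k generalizing m with
  | zero =>
    rw [pow_zero, pow_zero, one_smul]
    rfl
  | succ k ih =>
    rw [pow_succ, pow_succ, mul_smul]
    exact ih (x • m)

/-- Multiplication by the central element in the values. -/
noncomputable def liftX (h : IsTrunc ι x n) (M : ModuleCat.{u} B) :
    End ((cs ι).obj ((rs ι).obj M)) :=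
  (cs ι).map ((rs ι).map (mulX h M))

/-- The commutator with the central element on a coinduced module. -/
noncomputable def comm (h : IsTrunc ι x n) (M : ModuleCat.{u} B) :
    End ((cs ι).obj ((rs ι).obj M)) :=
  liftX h M - mulX h ((cs ι).obj ((rs ι).obj M))

theorem comm_apply (h : IsTrunc ι x n) (M : ModuleCat.{u} B) (f : (cs ι).obj ((rs ι).obj M))
    (b : B) : ev ((comm h M).hom f) b = x • ev f b - ev f (b * x) :=
  rfl

theorem comm_nilpotent (h : IsTrunc ι x n) (M : ModuleCat.{u} B) : IsNilpotent (comm h M) := by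
  refine Commute.isNilpotent_sub (show Commute (liftX h M) (mulX h _) from
    mulX_natural h (liftX h M)) ⟨n, ?_⟩ ⟨n, ?_⟩
  · show ((rs ι ⋙ cs ι).mapEnd M (mulX h M)) ^ n = 0
    rw [← map_pow]
    have : mulX h M ^ n = 0 := by
      refine ModuleCat.hom_ext (LinearMap.ext fun m => ?_)
      rw [mulX_pow_apply, h.pow_eq, zero_smul]
      rfl
    rw [this]
    show (cs ι).map ((rs ι).map (0 : End M)) = 0
    refine ModuleCat.hom_ext (LinearMap.ext fun f => coext_ext h fun j _ => ?_)
    rfl
  · refine ModuleCat.hom_ext (LinearMap.ext fun m => ?_)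
    rw [mulX_pow_apply, h.pow_eq, zero_smul]
    rfl

/-- The trace of a coinduced module. -/
noncomputable def trFun (x : B) (n : ℕ) {M : ModuleCat.{u} B}
    (f : (cs ι).obj ((rs ι).obj M)) : M :=
  ∑ i ∈ Finset.range n, x ^ (n - 1 - i) • ev f (x ^ i)

theorem trFun_add {M : ModuleCat.{u} B} (f g : (cs ι).obj ((rs ι).obj M)) :
    trFun x n (f + g) = trFun x n f + trFun x n g := by
  rw [trFun, trFun, trFun, ← Finset.sum_add_distrib]
  exact Finset.sum_congr rfl fun i _ => by rw [ev_add, smul_add]

theorem trFun_sc (h : IsTrunc ι x n) {M : ModuleCat.{u} B} (a : A)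
    (f : (cs ι).obj ((rs ι).obj M)) : trFun x n (ι a • f) = ι a • trFun x n f := by
  rw [trFun, trFun, Finset.smul_sum]
  refine Finset.sum_congr rfl fun i _ => ?_
  have hc : ∀ k, Commute (x ^ k) (ι a) := fun k => Commute.pow_left (h.central (ι a)) k
  rw [ev_smul, (hc i).eq, ev_sc, ← mul_smul, ← mul_smul, (hc _).eq]

theorem trFun_x (h : IsTrunc ι x n) {M : ModuleCat.{u} B}
    (f : (cs ι).obj ((rs ι).obj M)) : trFun x n (x • f) = x • trFun x n f := by
  let c : ℕ → M := fun i => x ^ (n - i) • ev f (x ^ i)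
  have hl : trFun x n (x • f) = ∑ i ∈ Finset.range n, c (i + 1) := by
    refine Finset.sum_congr rfl fun i _ => ?_
    rw [ev_smul, ← pow_succ, Nat.sub_sub, Nat.add_comm 1 i]
  have hr : x • trFun x n f = ∑ i ∈ Finset.range n, c i := by
    rw [trFun, Finset.smul_sum]
    refine Finset.sum_congr rfl fun i hi => ?_
    rw [← mul_smul, ← pow_succ']
    have : n - 1 - i + 1 = n - i := by have := Finset.mem_range.1 hi; omega
    rw [this]
  have h0 : c 0 = 0 := by simp [c, h.pow_eq]
  have hn : c n = 0 := by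
    show x ^ (n - n) • ev f (x ^ n) = 0
    rw [h.pow_eq, ev_zero, smul_zero]
  have e1 := Finset.sum_range_succ c n
  have e2 := Finset.sum_range_succ' c n
  rw [hn, add_zero] at e1
  rw [h0, add_zero] at e2
  rw [hl, hr, ← e2, e1]

/-- The trace as a linear map. -/
noncomputable def tr (h : IsTrunc ι x n) (M : ModuleCat.{u} B) :
    (cs ι).obj ((rs ι).obj M) ⟶ M :=
  ModuleCat.ofHom
    { toFun := trFun x n
      map_add' := trFun_add
      map_smul' := fun b (f : (cs ι).obj ((rs ι).obj M)) => by
        have hp : ∀ (j : ℕ) (g : (cs ι).obj ((rs ι).obj M)),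
            trFun x n (x ^ j • g) = x ^ j • trFun x n g := by
          intro j
          induction j with
          | zero => intro g; rw [pow_zero, one_smul, one_smul]
          | succ j ih => intro g; rw [pow_succ', mul_smul, trFun_x h, ih, mul_smul]
        obtain ⟨c, rfl⟩ := h.bij.2 b
        let T : (cs ι).obj ((rs ι).obj M) →+ M := AddMonoidHom.mk' (trFun x n) trFun_add
        show T ((∑ j, ι (c j) * x ^ (j : ℕ)) • f) =
          (∑ j, ι (c j) * x ^ (j : ℕ)) • trFun x n f
        rw [Finset.sum_smul, Finset.sum_smul, map_sum]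
        refine Finset.sum_congr rfl fun j _ => ?_
        show trFun x n ((ι (c j) * x ^ (j : ℕ)) • f) = _
        rw [mul_smul, trFun_sc h, hp, mul_smul] }

theorem tr_natural (h : IsTrunc ι x n) {M N : ModuleCat.{u} B} (g : M ⟶ N) :
    (cs ι).map ((rs ι).map g) ≫ tr h N = tr h M ≫ g := by
  ext f
  show ∑ i ∈ Finset.range n, x ^ (n - 1 - i) • g.hom (ev f (x ^ i)) =
    g.hom (∑ i ∈ Finset.range n, x ^ (n - 1 - i) • ev f (x ^ i))
  rw [map_sum]
  exact Finset.sum_congr rfl fun i _ => (g.hom.map_smul _ _).symm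

theorem tr_surjective (h : IsTrunc ι x n) (M : ModuleCat.{u} B) :
    Function.Surjective (tr h M).hom := by
  intro m
  rcases Nat.eq_zero_or_pos n with hn | hn
  · refine ⟨0, ?_⟩
    have h1 : (1 : B) = 0 := by
      have := h.pow_eq
      rwa [hn, pow_zero] at this
    rw [map_zero, ← one_smul B m, h1, zero_smul]
  · obtain ⟨f, hf⟩ := exists_coev h M fun i => if i = n - 1 then m else 0
    refine ⟨f, ?_⟩
    show ∑ i ∈ Finset.range n, x ^ (n - 1 - i) • ev f (x ^ i) = m
    rw [Finset.sum_eq_single (n - 1)]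
    · rw [hf _ (by omega), if_pos rfl, Nat.sub_self, pow_zero, one_smul]
    · intro i hi hne
      rw [hf i (Finset.mem_range.1 hi), if_neg hne]
      exact smul_zero _
    · intro hne
      exact absurd (Finset.mem_range.2 (by omega)) hne

theorem tr_comm (h : IsTrunc ι x n) (M : ModuleCat.{u} B) : comm h M ≫ tr h M = 0 := by
  refine (Preadditive.sub_comp (liftX h M : _ ⟶ _) (mulX h _) (tr h M)).trans ?_
  rw [sub_eq_zero]
  exact (tr_natural h (mulX h M)).trans (mulX_natural h (tr h M)).symm

/-- The kernel of the trace, as a short complex. -/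
noncomputable abbrev trComplex (h : IsTrunc ι x n) (M : ModuleCat.{u} B) :
    ShortComplex (ModuleCat.{u} B) :=
  (tr h M).hom.shortComplexKer

/-- The commutator corestricted to the kernel of the trace. -/
noncomputable def commRestrict (h : IsTrunc ι x n) (M : ModuleCat.{u} B) :
    (cs ι).obj ((rs ι).obj M) →ₗ[B] LinearMap.ker (tr h M).hom :=
  (comm h M).hom.codRestrict _ fun f =>
    congrArg (fun t : (cs ι).obj ((rs ι).obj M) ⟶ M => t.hom f) (tr_comm h M)

/-- The unit sequence, as a short complex. -/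
noncomputable def unitComplex (h : IsTrunc ι x n) (M : ModuleCat.{u} B) :
    ShortComplex (ModuleCat.{u} B) :=
  ModuleCat.shortComplexOfCompEqZero ((ModuleCat.restrictCoextendScalarsAdj ι).unit.app M).hom
    (commRestrict h M) (LinearMap.ext fun m => Subtype.ext (coev_ext h fun j _ => by
      show ev ((comm h M).hom (((ModuleCat.restrictCoextendScalarsAdj ι).unit.app M).hom m))
        (x ^ j) = (0 : M)
      rw [comm_apply]
      show x • x ^ j • m - (x ^ j * x) • m = (0 : M)
      rw [← mul_smul, h.central, sub_self]))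

theorem unit_shortExact (h : IsTrunc ι x n) (M : ModuleCat.{u} B) :
    (unitComplex h M).ShortExact where
  exact := by
    rw [ShortComplex.ShortExact.moduleCat_exact_iff_function_exact]
    intro f
    constructor
    · intro hf
      have hD : ∀ b : B, x • ev f b - ev f (b * x) = 0 := fun b =>
        (comm_apply h M f b).symm.trans
          (congrArg (fun t : (cs ι).obj ((rs ι).obj M) => ev t b) (congrArg Subtype.val hf))
      refine ⟨ev f (1), coev_ext h fun j hj => ?_⟩
      show x ^ j • ev f (1) = ev f (x ^ j)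
      clear hf
      induction j with
      | zero => rw [pow_zero, one_smul]
      | succ j ih => rw [pow_succ', mul_smul, ih (by omega), sub_eq_zero.1 (hD (x ^ j)), ← pow_succ, pow_succ']
    · rintro ⟨m, rfl⟩
      exact congrArg (fun t : M →ₗ[B] LinearMap.ker (tr h M).hom => t m)
        (congrArg ModuleCat.Hom.hom (unitComplex h M).zero)
  mono_f := (ModuleCat.mono_iff_injective _).2 fun m k hmk => by
    have := congrArg (fun t : (cs ι).obj ((rs ι).obj M) => ev t 1) hmk
    change (1 : B) • m = (1 : B) • k at this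
    rwa [one_smul, one_smul] at this
  epi_g := (ModuleCat.epi_iff_surjective _).2 (by
    rintro ⟨g, hg⟩
    let v : ℕ → M := fun j => Nat.rec 0 (fun k vk => x • vk - ev g (x ^ k)) j
    have hsum : ∀ j, v j + ∑ i ∈ Finset.range j, x ^ (j - 1 - i) • ev g (x ^ i) = 0 := by
      intro j
      induction j with
      | zero => exact add_zero _
      | succ k ih =>
        rw [Finset.sum_range_succ]
        show x • v k - ev g (x ^ k) + (_ + x ^ (k - k) • ev g (x ^ k)) = 0
        have e : ∑ i ∈ Finset.range k, x ^ (k - i) • ev g (x ^ i) =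
            x • ∑ i ∈ Finset.range k, x ^ (k - 1 - i) • ev g (x ^ i) := by
          rw [Finset.smul_sum]
          refine Finset.sum_congr rfl fun i hi => ?_
          have hk : k - 1 - i + 1 = k - i := by have := Finset.mem_range.1 hi; omega
          rw [← mul_smul, ← pow_succ', hk]
        simp only [Nat.add_sub_cancel, Nat.sub_self, pow_zero, one_smul, e]
        calc _ = x • (v k + ∑ i ∈ Finset.range k, x ^ (k - 1 - i) • ev g (x ^ i)) := by
              rw [smul_add]; abel
          _ = 0 := by rw [ih, smul_zero]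
    have hn : v n = 0 := by
      have := hsum n
      rwa [show ∑ i ∈ Finset.range n, x ^ (n - 1 - i) • ev g (x ^ i) = 0 from hg,
        add_zero] at this
    obtain ⟨f, hf⟩ := exists_coev h M v
    refine ⟨f, Subtype.ext (coev_ext h fun j hj => ?_)⟩
    refine (comm_apply h M f (x ^ j)).trans ?_
    show x • ev f (x ^ j) - ev f (x ^ j * x) = ev g (x ^ j)
    rw [hf j hj, ← pow_succ]
    have hnext : ev f (x ^ (j + 1)) = v (j + 1) := by
      rcases Nat.lt_or_ge (j + 1) n with hlt | hge
      · exact hf _ hlt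
      · have he : j + 1 = n := by omega
        rw [he, h.pow_eq, hn]
        exact (val f).map_zero
    rw [hnext]
    exact sub_sub_cancel _ _)

/-- The coinduced module of the base ring is the ring itself. -/
noncomputable def coRingIso (h : IsTrunc ι x n) :
    (cs ι).obj (ModuleCat.of A A) ≅ ModuleCat.of B B :=
  let j : ModuleCat.of A A ⟶ (rs ι).obj (ModuleCat.of B B) :=
    ModuleCat.ofHom (Y := (rs ι).obj (ModuleCat.of B B))
      { toFun := fun a => (ι a : B)
        map_add' := fun a b => ι.map_add a b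
        map_smul' := fun a b => ι.map_mul a b }
  (LinearEquiv.ofBijective ((cs ι).map j ≫ tr h (ModuleCat.of B B)).hom (by
    have key : ∀ f : (cs ι).obj (ModuleCat.of A A),
        ((cs ι).map j ≫ tr h (ModuleCat.of B B)).hom f =
          ∑ i : Fin n, ι (val f (x ^ (n - 1 - (i : ℕ)) : B)) * x ^ (i : ℕ) := by
      intro f
      show (∑ i ∈ Finset.range n, x ^ (n - 1 - i) * ι (val f (x ^ i : B)) : B) = _
      rw [← Finset.sum_range_reflect, ← Fin.sum_univ_eq_sum_range
        (fun i => x ^ (n - 1 - (n - 1 - i)) * ι (val f (x ^ (n - 1 - i) : B)))]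
      refine Finset.sum_congr rfl fun i _ => ?_
      rw [show n - 1 - (n - 1 - (i : ℕ)) = (i : ℕ) by omega]
      exact (Commute.pow_left (h.central _) _).eq
    refine ⟨fun f g hfg => coext_ext h fun j hj => ?_, fun b => ?_⟩
    · rw [key, key] at hfg
      have := congrFun (h.bij.1 hfg) ⟨n - 1 - j, by omega⟩
      rwa [show n - 1 - (n - 1 - j) = j by omega] at this
    · obtain ⟨c, rfl⟩ := h.bij.2 b
      obtain ⟨f, hf⟩ := exists_coext h (ModuleCat.of A A)
        fun j => if hj : n - 1 - j < n then c ⟨n - 1 - j, hj⟩ else 0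
      refine ⟨f, ?_⟩
      rw [key]
      refine Finset.sum_congr rfl fun i _ => ?_
      rw [hf _ (by omega), dif_pos (by omega)]
      congr 3
      ext
      show n - 1 - (n - 1 - (i : ℕ)) = i
      omega)).toModuleIso

theorem finite_rs (h : IsTrunc ι x n) (M : ModuleCat.{u} B) [Module.Finite B M] :
    Module.Finite A ((rs ι).obj M) := by
  obtain ⟨k, f, hf⟩ := Module.Finite.exists_fin' B M
  let b : Fin k × Fin n → (rs ι).obj M := fun t => (x ^ (t.2 : ℕ) • f (Pi.single t.1 1) : M)
  refine Module.Finite.of_surjective (Fintype.linearCombination A b) fun m => ?_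
  obtain ⟨r, hr⟩ := hf (m : M)
  choose c hc using fun i => h.bij.2 (r i)
  refine ⟨fun t => c t.1 t.2, ?_⟩
  rw [Fintype.linearCombination_apply]
  show ∑ t : Fin k × Fin n, ι (c t.1 t.2) • x ^ (t.2 : ℕ) • f (Pi.single t.1 1) = (m : M)
  rw [Fintype.sum_prod_type, ← hr]
  conv_rhs => rw [← Finset.univ_sum_single r, map_sum]
  refine Finset.sum_congr rfl fun i _ => ?_
  conv_rhs => rw [show (Pi.single i (r i) : Fin k → B) = r i • Pi.single i 1 by
    rw [← Pi.single_smul, smul_eq_mul, mul_one], map_smul, ← hc i, Finset.sum_smul]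
  exact Finset.sum_congr rfl fun j _ => (mul_smul _ _ _).symm

theorem unit_comp (h : IsTrunc ι x n) (M : ModuleCat.{u} B) :
    (unitComplex h M).g ≫ (trComplex h M).f = comm h M :=
  ModuleCat.hom_ext (LinearMap.ext fun _ => rfl)

theorem comp_two {M X Y Z : ModuleCat.{u} B} {i : ℕ} (α : Ext M X i) (f : X ⟶ Y) (g : Y ⟶ Z)
    (φ : X ⟶ Z) (hφ : f ≫ g = φ) : α.comp (Ext.mk₀ φ) (add_zero i) =
      (α.comp (Ext.mk₀ f) (add_zero i)).comp (Ext.mk₀ g) (add_zero i) := by
  subst hφ
  rw [Ext.comp_assoc_of_second_deg_zero, Ext.mk₀_comp_mk₀]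

theorem ext_postcomp (h : IsTrunc ι x n) (M : ModuleCat.{u} B) (hMM : ExtVanish M M) :
    ExtVanish M ((cs ι).obj ((rs ι).obj M)) := by
  intro i hi
  refine subsingleton_of_forall_eq 0 fun y => ?_
  obtain ⟨k, hk⟩ := comm_nilpotent h M
  have step : ∀ z : Ext M ((cs ι).obj ((rs ι).obj M)) i,
      ∃ w : Ext M ((cs ι).obj ((rs ι).obj M)) i,
        w.comp (Ext.mk₀ (comm h M)) (add_zero i) = z := by
    intro z
    have := hMM i hi
    have := hMM (i + 1) (by omega)
    obtain ⟨v, rfl⟩ := Ext.covariant_sequence_exact₂ M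
      (LinearMap.shortExact_shortComplexKer (tr_surjective h M)) z (Subsingleton.elim _ _)
    obtain ⟨w, rfl⟩ := Ext.covariant_sequence_exact₃ M (unit_shortExact h M) v (n₁ := i + 1) rfl
      (Subsingleton.elim (α := Ext M M (i + 1)) _ _)
    exact ⟨w, comp_two w _ _ _ (unit_comp h M)⟩
  have all : ∀ j : ℕ, ∃ w : Ext M ((cs ι).obj ((rs ι).obj M)) i,
      w.comp (Ext.mk₀ (comm h M ^ j : End _)) (add_zero i) = y := by
    intro j
    induction j with
    | zero => exact ⟨y, by rw [pow_zero]; exact y.comp_mk₀_id⟩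
    | succ j ih =>
      obtain ⟨w, rfl⟩ := ih
      obtain ⟨v, rfl⟩ := step w
      refine ⟨v, ?_⟩
      rw [pow_succ, Ext.comp_assoc_of_second_deg_zero, Ext.mk₀_comp_mk₀]
      rfl
  obtain ⟨w, rfl⟩ := all k
  rw [hk]
  show w.comp (Ext.mk₀ (0 : (cs ι).obj ((rs ι).obj M) ⟶ (cs ι).obj ((rs ι).obj M)))
    (add_zero i) = 0
  rw [Ext.mk₀_zero, Ext.comp_zero]

theorem ar_trunc (h : IsTrunc ι x n) (hA : ARProperty A) : ARProperty B := by
  intro M hfin hMM hMR
  have hco := ext_postcomp h M hMM
  have hext : ∀ X, ExtVanish M ((cs ι).obj X) → ExtVanish ((rs ι).obj M) X := by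
    intro X hX i hi
    obtain ⟨j, rfl⟩ : ∃ j, i = j + 1 := ⟨i - 1, by omega⟩
    exact ext_rs h X j M (hX _ hi)
  have hproj : Module.Projective A ((rs ι).obj M) :=
    hA _ (finite_rs h M) (hext _ hco)
      (hext _ (extVanish_congr (coRingIso h).symm hMR))
  have : Projective ((rs ι).obj M) :=
    (IsProjective.iff_projective (R := A) ((rs ι).obj M : ModuleCat.{u} A)).1 hproj
  have hK : Subsingleton (Ext M (trComplex h M).X₁ 1) := by
    refine subsingleton_of_forall_eq 0 fun v => ?_
    have := hMM 2 (by omega)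
    have := hco 1 le_rfl
    obtain ⟨w, rfl⟩ := Ext.covariant_sequence_exact₃ M (unit_shortExact h M) v (n₁ := 2) rfl
      (Subsingleton.elim (α := Ext M M 2) _ _)
    obtain rfl : w = 0 := Subsingleton.elim (α := Ext M ((cs ι).obj ((rs ι).obj M)) 1) w 0
    exact Ext.zero_comp ..
  obtain ⟨s, hs⟩ := exists_section
    (S := trComplex h M) (LinearMap.shortExact_shortComplexKer (tr_surjective h M)) hK
  refine (IsProjective.iff_projective M).2 ⟨fun {Y Z} f q => ?_⟩
  intro hq
  have : Epi ((rs ι).map q) :=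
    (ModuleCat.epi_iff_surjective _).2 ((ModuleCat.epi_iff_surjective q).1 hq)
  refine ⟨s ≫ (cs ι).map (Projective.factorThru ((rs ι).map f) ((rs ι).map q)) ≫ tr h Y, ?_⟩
  rw [Category.assoc, Category.assoc, ← tr_natural, ← Functor.map_comp_assoc,
    Projective.factorThru_comp, tr_natural, ← Category.assoc]
  exact (congrArg (· ≫ f) hs).trans (Category.id_comp f)

end Vale.Agent.P195.Trunc
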